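import Vale.Agent.P275AD.Loc

/-!
# P275, block AD: change of charts
-/

set_option linter.unusedSectionVars false

open scoped Matrix.Norms.Operator Topology ContDiff Manifold
open Filter Set Matrix Metric
open Vale.Agent.P275ST (ctr loc jac MerAt ord HolExt SmExt)
open Vale.Agent.P275GC Vale.Agent.P275GC.At

noncomputable section

namespace Vale.Agent.P275AD

/-- biholomorphic germs -/
structure Bi (φ ψ : ℂ → ℂ) (z u : ℂ) : Prop where
  a1 : AnalyticAt ℂ φ z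
  a2 : AnalyticAt ℂ ψ u
  e1 : φ z = u
  e2 : ψ u = z
  l : ∀ᶠ w in 𝓝 z, ψ (φ w) = w
  r : ∀ᶠ w in 𝓝 u, φ (ψ w) = w

namespace Bi
variable {φ ψ : ℂ → ℂ} {z u : ℂ} (h : Bi φ ψ z u)
include h

theorem symm : Bi ψ φ u z := ⟨h.a2, h.a1, h.e2, h.e1, h.r, h.l⟩

theorem ne : deriv φ z ≠ 0 := by
  have a := (h.e1 ▸ h.a2).differentiableAt.hasDerivAt.comp z h.a1.differentiableAt.hasDerivAt
  have b : HasDerivAt (ψ ∘ φ) 1 z := (hasDerivAt_id z).congr_of_eventuallyEq h.l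
  exact right_ne_zero_of_mul_eq_one (a.unique b)

theorem tend : Tendsto φ (𝓝[≠] z) (𝓝[≠] u) :=
  h.e1 ▸ h.a1.differentiableAt.hasDerivAt.tendsto_nhdsNE h.ne

theorem tend' : Tendsto φ (𝓝 z) (𝓝 u) := h.e1 ▸ h.a1.continuousAt.tendsto

theorem ev {p : ℂ → Prop} : (∀ᶠ w in 𝓝[≠] z, p (φ w)) ↔ ∀ᶠ w in 𝓝[≠] u, p w :=
  ⟨fun a => by
    filter_upwards [h.symm.tend.eventually a, pn h.r] with w b c using c ▸ b,
    fun a => h.tend.eventually a⟩

theorem back {V : Type} {F F' : ℂ → V} (e : ∀ᶠ w in 𝓝[≠] z, F' w = F (φ w)) :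
    ∀ᶠ w in 𝓝[≠] u, F w = F' (ψ w) := by
  filter_upwards [h.symm.tend.eventually e, pn h.r] with w a b using by rw [a, b]

variable {m n : Type} [Fintype m] [Fintype n]

theorem me {F F' : ℂ → Matrix m n ℂ} (e : ∀ᶠ w in 𝓝[≠] z, F' w = F (φ w)) : Me F' z ↔ Me F u :=
  ⟨fun a => ((h.e2 ▸ a).comp h.a2).congr (EventuallyEq.symm (h.back e)),
    fun a => ((h.e1 ▸ a).comp h.a1).congr (EventuallyEq.symm e)⟩

theorem ho {F F' : ℂ → Matrix m n ℂ} (e : ∀ᶠ w in 𝓝[≠] z, F' w = F (φ w)) : Ho F' z ↔ Ho F u :=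
  ⟨fun a => ((h.e2 ▸ a).comp h.a2 h.symm.ne).congr (EventuallyEq.symm (h.back e)),
    fun a => ((h.e1 ▸ a).comp h.a1 h.ne).congr (EventuallyEq.symm e)⟩

theorem un [DecidableEq n] {F F' : ℂ → Matrix n n ℂ} (e : ∀ᶠ w in 𝓝[≠] z, F' w = F (φ w)) :
    Un F' z ↔ Un F u :=
  ⟨fun a => ((h.e2 ▸ a).comp h.a2 h.symm.ne).congr (EventuallyEq.symm (h.back e)),
    fun a => ((h.e1 ▸ a).comp h.a1 h.ne).congr (EventuallyEq.symm e)⟩

theorem mer {f f' : ℂ → ℂ} (e : ∀ᶠ w in 𝓝[≠] z, f' w = f (φ w)) :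
    MeromorphicAt f' z ↔ MeromorphicAt f u :=
  (MeromorphicAt.meromorphicAt_congr e).trans
    (h.e1 ▸ meromorphicAt_comp_iff_of_deriv_ne_zero h.a1 h.ne)

theorem ord {f f' : ℂ → ℂ} (e : ∀ᶠ w in 𝓝[≠] z, f' w = f (φ w)) :
    meromorphicOrderAt f' z = meromorphicOrderAt f u :=
  (meromorphicOrderAt_congr e).trans (h.e1 ▸ meromorphicOrderAt_comp_of_deriv_ne_zero h.a1 h.ne)

end Bi

section top
variable {C : Type} [TopologicalSpace C] {e : OpenPartialHomeomorph C ℂ} {z : ℂ}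

theorem ev_pt (hz : z ∈ e.target) {p : C → Prop} :
    (∀ᶠ y in 𝓝[≠] (e.symm z), p y) ↔ ∀ᶠ w in 𝓝[≠] z, p (e.symm w) := by
  have : e.symm.IsImage {z}ᶜ {e.symm z}ᶜ := fun w hw =>
    not_congr ⟨fun a => e.symm.injOn hw hz a, fun a => congrArg _ a⟩
  rw [← this.map_nhdsWithin_eq hz, eventually_map]

theorem ev_pt' (hz : z ∈ e.target) {p : C → Prop} :
    (∀ᶠ y in 𝓝 (e.symm z), p y) ↔ ∀ᶠ w in 𝓝 z, p (e.symm w) := by
  rw [← e.symm.map_nhds_eq hz, eventually_map]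

/-- transition maps of an atlas -/
theorem bi_tr {A : At C} {i j : Fin A.N} (h : z ∈ A.O i j) :
    Bi (A.tr i j) (A.tr j i) z (A.tr i j z) :=
  ⟨an_tr h, an_tr (tr_mem h), rfl, tr_inv h, eventually_of_mem (O_nhds h) fun _ => tr_inv,
    eventually_of_mem (O_nhds (tr_mem h)) fun _ => tr_inv⟩

variable {A : At C} {i j : Fin A.N}

theorem ex_pt (A : At C) (x : C) : ∃ i, ∃ z ∈ ball (0 : ℂ) A.R, pt A i z = x := by
  obtain ⟨i, a, -⟩ := A.cov x
  exact ⟨i, _, map_src a, (A.e i).left_inv a⟩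

theorem pt_ind {p : C → Prop} (A : At C) (h : ∀ i, ∀ z ∈ ball (0 : ℂ) A.R, p (pt A i z)) (x : C) :
    p x := by
  obtain ⟨i, z, a, rfl⟩ := ex_pt A x
  exact h i z a

theorem ev_ball (h : z ∈ ball (0 : ℂ) A.R) : ∀ᶠ w in 𝓝[≠] z, w ∈ ball (0 : ℂ) A.R :=
  pn (isOpen_ball.mem_nhds h)

theorem ev_O (h : z ∈ A.O i j) : ∀ᶠ w in 𝓝[≠] z, w ∈ A.O i j := pn (O_nhds h)

end top

variable {C : Type} [TopologicalSpace C] [ChartedSpace ℂ C] {e e' : OpenPartialHomeomorph C ℂ}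
  {z : ℂ} {x : C}

theorem cmp_of_max (h : e ∈ IsManifold.maximalAtlas 𝓘(ℂ) ω C) [IsManifold 𝓘(ℂ) ω C] : Cmp e := by
  have k : ∀ e e' : OpenPartialHomeomorph C ℂ, e ∈ IsManifold.maximalAtlas 𝓘(ℂ) ω C →
      e' ∈ IsManifold.maximalAtlas 𝓘(ℂ) ω C → ∀ x ∈ e.source, x ∈ e'.source →
      AnalyticAt ℂ (fun z => e' (e.symm z)) (e x) := fun e e' h h' x hx hx' => by
    have a := (IsManifold.compatible_of_mem_maximalAtlas h h').1
    simp only [contDiffPregroupoid, modelWithCornersSelf_coe, modelWithCornersSelf_coe_symm,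
      Function.comp_id, Function.id_comp, range_id, preimage_id_eq, id_eq, inter_univ] at a
    exact (a.contDiffAt ((e.symm ≫ₕ e').open_source.mem_nhds
      ⟨e.map_source hx, by simpa [e.left_inv hx] using hx'⟩)).analyticAt
  have c := fun x : C => IsManifold.chart_mem_maximalAtlas (I := 𝓘(ℂ)) (n := ω) x
  exact fun x hx => ⟨k _ _ (c x) h x (mem_chart_source _ x) hx,
    k _ _ h (c x) x hx (mem_chart_source _ x)⟩

theorem cmp_chart [IsManifold 𝓘(ℂ) ω C] (x : C) : Cmp (chartAt ℂ x) :=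
  cmp_of_max (IsManifold.chart_mem_maximalAtlas x)

theorem ctr_mem (x : C) : ctr x ∈ (chartAt ℂ x).target := mem_chart_target ℂ x

theorem symm_ctr (x : C) : (chartAt ℂ x).symm (ctr x) = x :=
  (chartAt ℂ x).left_inv (mem_chart_source ℂ x)

theorem ev_loc {p : C → Prop} :
    (∀ᶠ y in 𝓝[≠] x, p y) ↔ ∀ᶠ w in 𝓝[≠] (ctr x), p ((chartAt ℂ x).symm w) := by
  rw [← ev_pt (ctr_mem x), symm_ctr]

/-- the change of coordinates from `e` to the chart at the point with coordinate `z` -/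
def tc (e : OpenPartialHomeomorph C ℂ) (z w : ℂ) : ℂ := chartAt ℂ (e.symm z) (e.symm w)

/-- its inverse -/
def ct (e : OpenPartialHomeomorph C ℂ) (z w : ℂ) : ℂ := e ((chartAt ℂ (e.symm z)).symm w)

theorem ev_src (hz : z ∈ e.target) (h : e.symm z ∈ e'.source) :
    ∀ᶠ w in 𝓝 z, w ∈ e.target ∧ e.symm w ∈ e'.source :=
  Eventually.and (e.open_target.mem_nhds hz)
    ((e.continuousAt_symm hz).eventually (e'.open_source.mem_nhds h))

theorem symm_tc (hz : z ∈ e.target) :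
    ∀ᶠ w in 𝓝 z, (chartAt ℂ (e.symm z)).symm (tc e z w) = e.symm w :=
  (ev_src hz (mem_chart_source ℂ _)).mono fun _ a => (chartAt ℂ _).left_inv a.2

theorem loc_tc {V : Type} (hz : z ∈ e.target) (f : C → V) :
    ∀ᶠ w in 𝓝[≠] z, f (e.symm w) = loc (e.symm z) f (tc e z w) :=
  (pn (symm_tc hz)).mono fun _ a => congrArg f a.symm

theorem Cmp.bi (h : Cmp e) (hz : z ∈ e.target) : Bi (tc e z) (ct e z) z (ctr (e.symm z)) := by
  obtain ⟨a, b⟩ := h _ (e.map_target hz)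
  rw [e.right_inv hz] at b
  refine ⟨b, a, rfl, by rw [ct, symm_ctr, e.right_inv hz], ?_, ?_⟩
  · filter_upwards [symm_tc hz, e.open_target.mem_nhds hz] with w c d
    rw [ct, c, e.right_inv d]
  · filter_upwards [ev_src (e' := e) (ctr_mem (e.symm z))
      (by rw [symm_ctr]; exact e.map_target hz)] with w c
    rw [tc, ct, e.left_inv c.2, (chartAt ℂ _).right_inv c.1]

theorem Cmp.jc_ne (h : Cmp e) (hz : z ∈ e.target) : jc e z ≠ 0 := (h.bi hz).ne

theorem Cmp.an (h : Cmp e) (h' : Cmp e') (hz : z ∈ e.target) (hz' : e.symm z ∈ e'.source) :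
    AnalyticAt ℂ (fun w => e' (e.symm w)) z := by
  refine (AnalyticAt.comp (g := fun u => e' ((chartAt ℂ (e.symm z)).symm u)) (f := tc e z)
    (h' _ hz').1 (h.bi hz).a1).congr ((symm_tc hz).mono fun w a => ?_)
  simp only [Function.comp, a]

theorem Cmp.jc_eq (h : Cmp e) (h' : Cmp e') (hz : z ∈ e.target) (hz' : e.symm z ∈ e'.source) :
    jc e z = jc e' (e' (e.symm z)) * deriv (fun w => e' (e.symm w)) z := by
  have a := (h'.bi (e'.map_source hz')).a1.differentiableAt.hasDerivAt.comp z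
    (h.an h' hz hz').differentiableAt.hasDerivAt
  refine (a.congr_of_eventuallyEq ((ev_src hz hz').mono fun w c => ?_)).deriv
  simp only [Function.comp, tc, e'.left_inv c.2, e'.left_inv hz']

theorem Cmp.jc_tc [IsManifold 𝓘(ℂ) ω C] (h : Cmp e) (hz : z ∈ e.target) :
    ∀ᶠ w in 𝓝 z, jc e w = jac (e.symm z) (tc e z w) * deriv (tc e z) w :=
  (ev_src hz (mem_chart_source ℂ _)).mono fun _ a => h.jc_eq (cmp_chart _) a.1 a.2

section pull
variable (h : Cmp e) (hz : z ∈ e.target) {m n : Type} [Fintype m] [Fintype n]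
include h hz

theorem Cmp.me {F : C → Matrix m n ℂ} :
    Me (fun w => F (e.symm w)) z ↔ ∀ a b, MerAt (e.symm z) fun y => F y a b :=
  (h.bi hz).me (loc_tc hz F)

theorem Cmp.ho {F : C → Matrix m n ℂ} :
    Ho (fun w => F (e.symm w)) z ↔ Ho (loc (e.symm z) F) (ctr (e.symm z)) :=
  (h.bi hz).ho (loc_tc hz F)

theorem Cmp.un [DecidableEq n] {F : C → Matrix n n ℂ} :
    Un (fun w => F (e.symm w)) z ↔ Un (loc (e.symm z) F) (ctr (e.symm z)) :=
  (h.bi hz).un (loc_tc hz F)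

theorem Cmp.mer {f : C → ℂ} : MeromorphicAt (fun w => f (e.symm w)) z ↔ MerAt (e.symm z) f :=
  (h.bi hz).mer (loc_tc hz f)

theorem Cmp.ord {f : C → ℂ} : meromorphicOrderAt (fun w => f (e.symm w)) z = ord (e.symm z) f :=
  (h.bi hz).ord (loc_tc hz f)

end pull

variable {A : At C} {i j : Fin A.N}

theorem Ok.jc_tr (h : Ok A) (hz : z ∈ A.O i j) :
    jc (A.e i) z = jc (A.e j) (A.tr i j z) * A.d i j z :=
  (h i).jc_eq (h j) (mem_tgt.2 hz.1) hz.2

end Vale.Agent.P275AD
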