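import Vale.Agent.P275ST.Geo
import Vale.Agent.P275NA.Glob

/-!
# P275, block AD: lattices in a meromorphic frame against cocycles, definitions
-/

set_option linter.unusedSectionVars false

open scoped Matrix.Norms.Operator Topology ContDiff
open Filter Set Matrix Metric
open Vale.Agent.P275GC Vale.Agent.P275NA
open Vale.Agent.P275ST (ctr HolExt SmExt VB Higgs H0 Base)

noncomputable section

namespace Vale.Agent.P275AD

/-- the extension of a function over a puncture -/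
def hx {F : Type} [TopologicalSpace F] [Zero F] (f : ℂ → F) (z : ℂ) : F :=
  haveI : Nonempty F := ⟨0⟩
  limUnder (𝓝[≠] z) f

variable {C : Type} [TopologicalSpace C] [ChartedSpace ℂ C]

/-- the chart `e` is holomorphic for the complex structure of `C` -/
def Cmp (e : OpenPartialHomeomorph C ℂ) : Prop := ∀ x ∈ e.source,
  AnalyticAt ℂ (fun z => e ((chartAt ℂ x).symm z)) (ctr x) ∧
    AnalyticAt ℂ (fun z => chartAt ℂ x (e.symm z)) (e x)

/-- the derivative of the change of coordinates from `e` to the chart at the point -/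
def jc (e : OpenPartialHomeomorph C ℂ) (z : ℂ) : ℂ :=
  deriv (fun w => chartAt ℂ (e.symm z) (e.symm w)) z

variable (A : At C) {n : ℕ}

/-- all charts of the atlas are holomorphic -/
def Ok : Prop := ∀ i, Cmp (A.e i)

/-- the point with coordinate `z` in the chart `i` -/
abbrev pt (i : Fin A.N) (z : ℂ) : C := (A.e i).symm z

/-- `σ i` is the matrix of the frame of the chart `i` of the cocycle `g` in the meromorphic frame
of `E` -/
structure Fr (E : VB C n) (g : Cy A (Mn n)) (σ : Fm A (Mn n)) : Prop where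
  cc : A.Cc g
  lat : ∀ i, ∀ z ∈ ball (0 : ℂ) A.R, ∃ G,
    HolExt (fun w => (E.g (pt A i z) (pt A i w))⁻¹ * σ i w) G z ∧ (G z).det ≠ 0
  tr : ∀ i j, ∀ z ∈ A.O i j, ∀ᶠ w in 𝓝[≠] z, σ j (A.tr i j w) = σ i w * g i j w

/-- `σ` identifies the Higgs bundle `(g, a)` with `(E, θ)` -/
structure Ad {D : C →₀ ℤ} (E : Higgs C n D) (g : Cy A (Mn n)) (a σ : Fm A (Mn n)) : Prop where
  fr : Fr A E.toVB g σ
  hol : A.Hl a
  th : ∀ i, ∀ z ∈ ball (0 : ℂ) A.R, ∀ᶠ w in 𝓝[≠] z,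
    σ i w * a i w = (jc (A.e i) w • E.θ (pt A i w)) * σ i w

/-- `s` is a meromorphic section with divisor `D` of the line bundle `l` -/
structure Dv (D : C →₀ ℤ) (l : Cy A ℂ) (s : Fm A ℂ) : Prop where
  cc : A.Cc l
  mer : ∀ i, ∀ z ∈ ball (0 : ℂ) A.R, MeromorphicAt (s i) z
  ord : ∀ i, ∀ z ∈ ball (0 : ℂ) A.R, meromorphicOrderAt (s i) z = (D (pt A i z) : ℤ)
  tr : ∀ i j, ∀ z ∈ A.O i j, ∀ᶠ w in 𝓝[≠] z, s i w = l i j w * s j (A.tr i j w)

/-- `u` is an isomorphism from the line bundle `l` to the determinant of `g` -/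
structure DetI (g : Cy A (Mn n)) (l : Cy A ℂ) (u : Fm A ℂ) : Prop where
  hol : A.Hl u
  ne : ∀ i, ∀ z ∈ ball (0 : ℂ) A.R, u i z ≠ 0
  tr : ∀ i j, ∀ z ∈ A.O i j, u i z * l i j z = (g i j z).det * u j (A.tr i j z)

/-- the metric `h` of the cocycle is the metric `H` in the meromorphic frame -/
def MetR (σ : Fm A (Mn n)) (H : C → Mn n) (h : Fm A (Mn n)) : Prop :=
  ∀ i, ∀ z ∈ ball (0 : ℂ) A.R, ∀ᶠ w in 𝓝[≠] z, h i w = (σ i w)ᴴ * H (pt A i w) * σ i w

/-- the coefficient in the chart `i` of a `k`-differential -/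
def cf (k : ℕ) (b : C → ℂ) : Fm A ℂ := fun i z => jc (A.e i) z ^ k * b (pt A i z)

/-- Poincaré-Lelong -/
def PL : Prop := ∀ (β : Fm A ℝ) (v : C → ℝ) (m : C → ℤ), A.Dn β → A.Ct β →
  (Function.support m).Finite →
  (∀ i, ∀ z ∈ ball (0 : ℂ) A.R, ∃ p : ℂ → ℝ, ContDiffAt ℝ 2 p z ∧ 0 < p z ∧
    β i z = lp (fun w => Real.log (p w)) z ∧
    ∀ᶠ w in 𝓝[≠] z, v (pt A i w) = ‖w - z‖ ^ (2 * m (pt A i z)) * p w) →
  A.int β = -Real.pi * ((∑ᶠ x, m x : ℤ) : ℝ)

/-- existence of meromorphic frames -/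
def MFR : Prop := ∀ (n : ℕ) (g : Cy A (Mn n)), A.Cc g → ∃ τ : Fm A (Mn n),
  (∀ i, ∀ z ∈ ball (0 : ℂ) A.R, (∀ a b, MeromorphicAt (fun w => τ i w a b) z) ∧
    ∀ᶠ w in 𝓝[≠] z, (τ i w).det ≠ 0) ∧
  ∀ i j, ∀ z ∈ A.O i j, ∀ᶠ w in 𝓝[≠] z, τ i w = g i j w * τ j (A.tr i j w)

end Vale.Agent.P275AD
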