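import Vale.Agent.P275AD.Chart
import Vale.Agent.P275GC.Pu

/-!
# P275, block AD: from lattices to cocycles and back
-/

set_option linter.unusedSectionVars false

open scoped Matrix.Norms.Operator Topology ContDiff Manifold
open Filter Set Matrix Metric
open Vale.Agent.P281Z.Hm (an_ent an_of an_mul an_det an_inv)
open Vale.Agent.P275ST (ctr loc jac MerAt ord HolExt SmExt VB Higgs MerMx deg)
open Vale.Agent.P275GC Vale.Agent.P275GC.At Vale.Agent.P275NA

noncomputable section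

namespace Vale.Agent.P275AD

section top
variable {C : Type} [TopologicalSpace C] {A : At C} {i j : Fin A.N} {z : ℂ} {n : ℕ}

theorem fin_of_ev [CompactSpace C] {S : Set C} (h : ∀ x, ∀ᶠ y in 𝓝[≠] x, y ∉ S) : S.Finite := by
  obtain ⟨t, ht⟩ := CompactSpace.elim_nhds_subcover (fun x => {y | y ≠ x → y ∉ S})
    fun x => eventually_nhdsWithin_iff.1 (h x)
  refine t.finite_toSet.subset fun y hy => ?_
  obtain ⟨x, a, b⟩ := mem_iUnion₂.1 (ht.ge (mem_univ y))
  exact (by_contra fun e => b e hy : y = x) ▸ a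

theorem pt_tr (h : z ∈ A.O i j) : pt A j (A.tr i j z) = pt A i z := symm_tr h

theorem ev_A (h : z ∈ ball (0 : ℂ) A.R) {p : C → Prop} :
    (∀ᶠ y in 𝓝[≠] (pt A i z), p y) ↔ ∀ᶠ w in 𝓝[≠] z, p (pt A i w) := ev_pt (mem_tgt.2 h)

theorem ev_ind {p : C → Prop} (h : ∀ i, ∀ z ∈ ball (0 : ℂ) A.R, ∀ᶠ w in 𝓝[≠] z, p (pt A i w))
    (x : C) : ∀ᶠ y in 𝓝[≠] x, p y := by
  obtain ⟨i, a, -⟩ := A.cov x
  rw [← (A.e i).left_inv a]
  exact (ev_A (map_src a)).2 (h i _ (map_src a))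

/-- relations between charts which hold off discrete sets hold for the chosen charts -/
theorem ev_pick [T2Space C] {p : Fin A.N → ℂ → Prop} (hz : z ∈ ball (0 : ℂ) A.R)
    (h : ∀ j, z ∈ A.O i j → ∀ᶠ w in 𝓝[≠] z, p j w) :
    ∀ᶠ w in 𝓝[≠] z, ∀ j, w ∈ A.O i j → ‖A.tr i j w‖ < 1 → p j w := by
  refine eventually_all.2 fun j => ?_
  by_cases c : z ∈ A.O i j
  · exact (h j c).mono fun _ a _ _ => a
  · have k := (cpt_img (isCompact_closedBall 0 1) A.unit_sub j).isClosed.isOpen_compl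
    have m : pt A i z ∈ ((A.e j).symm '' closedBall 0 1)ᶜ := by
      rintro ⟨u, a, b⟩
      exact c ⟨hz, show pt A i z ∈ _ from b ▸ map_tgt (A.unit_sub a)⟩
    filter_upwards [pn ((contAt_symm hz).eventually (k.mem_nhds m))] with w a b d
    exact (a ⟨_, mem_closedBall_zero_iff.2 d.le, symm_tr b⟩).elim

theorem gl_ev [T2Space C] {V : Type} {u : Fm A V}
    (h : ∀ i j, ∀ z ∈ A.O i j, ∀ᶠ w in 𝓝[≠] z, u j (A.tr i j w) = u i w)
    (hz : z ∈ ball (0 : ℂ) A.R) : ∀ᶠ w in 𝓝[≠] z, A.gl u (pt A i w) = u i w := by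
  filter_upwards [ev_pick hz fun j => h i j z, ev_ball hz] with w a b
  exact a _ (pick_spec b i).1 (pick_spec b i).2

theorem an_of_hl {F : Type} [NormedAddCommGroup F] [NormedSpace ℂ F] {u : Fm A F}
    (h : ∀ i, ∀ z ∈ ball (0 : ℂ) A.R, AnalyticAt ℂ (u i) z) : A.Hl u :=
  fun i z hz => (h i z hz).differentiableAt.differentiableWithinAt

theorem cc_det {g : Cy A (Mn n)} (hg : A.Cc g) (h : z ∈ A.O i j) : (g i j z).det ≠ 0 :=
  hg.det.ne h

theorem cc_un {g : Cy A (Mn n)} (hg : A.Cc g) (h : z ∈ A.O i j) : Un (g i j) z :=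
  un_an (hg.an h) (cc_det hg h)

theorem cc_of {σ : Fm A (Mn n)} (h1 : ∀ i, ∀ z ∈ ball (0 : ℂ) A.R, Nd (σ i) z)
    (h2 : ∀ i j, ∀ z ∈ A.O i j, Ho (fun w => (σ i w)⁻¹ * σ j (A.tr i j w)) z) :
    ∃ g : Cy A (Mn n), A.Cc g ∧
      ∀ i j, ∀ z ∈ A.O i j, ∀ᶠ w in 𝓝[≠] z, σ j (A.tr i j w) = σ i w * g i j w := by
  let g : Cy A (Mn n) := fun i j => hx fun w => (σ i w)⁻¹ * σ j (A.tr i j w)
  have a : ∀ i j, ∀ z ∈ A.O i j, AnalyticAt ℂ (g i j) z := fun i j z h => (h2 i j z h).an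
  have b : ∀ i j, ∀ z ∈ A.O i j, ∀ᶠ w in 𝓝[≠] z, σ j (A.tr i j w) = σ i w * g i j w :=
    fun i j z h => by
      filter_upwards [(h2 i j z h).eq, h1 i z h.1] with w c d
      rw [show g i j w = _ from c.symm, mul_nonsing_inv_cancel_left _ _ d.isUnit]
  have c : ∀ {M X Y : Mn n}, M.det ≠ 0 → M * X = M * Y → X = Y := fun h e =>
    ((isUnit_iff_isUnit_det _).2 h.isUnit).mul_left_cancel e
  refine ⟨g, ⟨fun i j z h => (a i j z h).differentiableAt.differentiableWithinAt, fun i z h => ?_,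
    fun i j k z h h' => ?_⟩, b⟩
  · refine eq_of_ev (g := fun _ => 1) (a i i z (O_self h)).continuousAt continuousAt_const ?_
    filter_upwards [b i i z (O_self h), h1 i z h, ev_ball h] with w e1 e2 e3
    exact c e2 (by rw [← e1, tr_self e3, Matrix.mul_one])
  · refine eq_of_ev (g := fun w => g i j w * g j k (A.tr i j w)) (a i k z h').continuousAt
      (an_mul (a i j z h) ((a j k _ (tr_O h h')).comp (an_tr h))).continuousAt ?_
    filter_upwards [b i k z h', b i j z h, (bi_tr h).tend.eventually (b j k _ (tr_O h h')),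
      h1 i z h.1, ev_O h] with w e1 e2 e3 e4 e5
    exact c e4 (by rw [← e1, ← Matrix.mul_assoc, ← e2, ← e3, tr_tr e5])

end top

variable {C : Type} [TopologicalSpace C] [ChartedSpace ℂ C] {A : At C} {i j : Fin A.N} {z : ℂ}
  {n m : ℕ}

/-- the local frame of `E` at the point `z` of the chart `i` -/
abbrev gam (A : At C) (E : VB C n) (i : Fin A.N) (z w : ℂ) : Mn n := E.g (pt A i z) (pt A i w)

theorem gam_me (ok : Ok A) (E : VB C n) (hz : z ∈ ball (0 : ℂ) A.R) : Me (gam A E i z) z :=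
  ((ok i).me (mem_tgt.2 hz)).2 (E.mer _)

theorem gam_nd (ok : Ok A) (E : VB C n) (hz : z ∈ ball (0 : ℂ) A.R) : Nd (gam A E i z) z :=
  (meromorphicOrderAt_ne_top_iff_eventually_ne_zero (gam_me ok E hz).det).1
    (((ok i).ord (f := fun y => (E.g (pt A i z) y).det) (mem_tgt.2 hz)).trans_ne (E.nz _))

namespace Fr
variable {E : VB C n} {g : Cy A (Mn n)} {σ : Fm A (Mn n)} (h : Fr A E g σ)
include h

theorem un (hz : z ∈ ball (0 : ℂ) A.R) : Un (fun w => (gam A E i z w)⁻¹ * σ i w) z :=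
  un_iff.1 (h.lat i z hz)

theorem nd (hz : z ∈ ball (0 : ℂ) A.R) : Nd (σ i) z :=
  Eventually.mono (h.un hz).nd fun _ a => by
    rw [det_mul] at a; exact right_ne_zero_of_mul a

theorem me (ok : Ok A) (hz : z ∈ ball (0 : ℂ) A.R) : Me (σ i) z :=
  ((gam_me ok E hz).mul (h.un hz).me).congr (Eventually.mono (gam_nd ok E hz) fun _ a =>
    mul_nonsing_inv_cancel_left _ _ a.isUnit)

theorem ord_det (ok : Ok A) (hz : z ∈ ball (0 : ℂ) A.R) {f : ℂ → ℂ} (hf : MeromorphicAt f z) :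
    meromorphicOrderAt (fun w => f w * (σ i w).det) z =
      meromorphicOrderAt (fun w => f w * (gam A E i z w).det) z := by
  have a := meromorphicOrderAt_mul (hf.mul (gam_me ok E (i := i) hz).det) (h.un (i := i) hz).me.det
  rw [(h.un hz).ord, add_zero] at a
  refine (meromorphicOrderAt_congr ?_).trans a
  filter_upwards [gam_nd ok E (i := i) hz] with w b
  simp only [Pi.mul_apply, mul_assoc, ← det_mul, mul_nonsing_inv_cancel_left _ _ b.isUnit]

end Fr

theorem toFr (ok : Ok A) (E : VB C n) : ∃ g σ, Fr A E g σ := by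
  have a : ∀ i, ∃ σ : ℂ → Mn n, ∀ z ∈ ball (0 : ℂ) A.R,
      Un (fun w => (gam A E i z w)⁻¹ * σ w) z := fun i => by
    obtain ⟨σ, a, b⟩ := exists_lat (Z := ball 0 A.R ∩ pt A i ⁻¹' {x | E.g x ≠ fun _ => 1})
      (Set.Finite.of_finite_image (E.fin.subset (image_subset_iff.2 inter_subset_right))
        ((A.e i).symm.injOn.mono fun _ c => mem_tgt.2 c.1)) (gam A E i)
      fun z hz => ⟨gam_me ok E hz.1, gam_nd ok E hz.1⟩
    refine ⟨σ, fun z hz => ?_⟩
    by_cases c : E.g (pt A i z) = fun _ => 1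
    · simpa only [gam, c, inv_one, Matrix.one_mul] using a z fun d => d.2 c
    · exact b z ⟨hz, c⟩
  choose σ hσ using a
  have nd : ∀ i, ∀ z ∈ ball (0 : ℂ) A.R, Nd (σ i) z := fun i z hz =>
    Eventually.mono (hσ i z hz).nd fun _ a => by rw [det_mul] at a; exact right_ne_zero_of_mul a
  obtain ⟨g, b, c⟩ := cc_of nd fun i j z h => by
    refine ((hσ i z h.1).inv.mul ((hσ j _ (tr_ball h)).comp (an_tr h) (bi_tr h).ne)).ho.congr ?_
    filter_upwards [gam_nd ok E (i := i) h.1, ev_O h] with w d e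
    simp only [gam, pt_tr h, pt_tr e, Matrix.mul_inv_rev, nonsing_inv_nonsing_inv _ d.isUnit,
      Matrix.mul_assoc, mul_nonsing_inv_cancel_left _ _ d.isUnit]
  exact ⟨g, σ, b, fun i z hz => un_iff.2 (hσ i z hz), c⟩

theorem ofFr [T2Space C] (ok : Ok A) (mf : MFR A) {g : Cy A (Mn n)} (hg : A.Cc g) :
    ∃ E σ, Fr A E g σ := by
  classical
  have := A.compactSpace
  obtain ⟨τ, t1, t2⟩ := mf n g hg
  let σ : Fm A (Mn n) := fun i w => (τ i w)⁻¹
  have me : ∀ i, ∀ z ∈ ball (0 : ℂ) A.R, Me (σ i) z := fun i z hz => Me.inv (t1 i z hz).1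
  have nd : ∀ i, ∀ z ∈ ball (0 : ℂ) A.R, Nd (σ i) z := fun i z hz => Nd.inv (t1 i z hz).2
  have tr : ∀ i j, ∀ z ∈ A.O i j, ∀ᶠ w in 𝓝[≠] z, σ j (A.tr i j w) = σ i w * g i j w :=
    fun i j z h => by
      filter_upwards [t2 i j z h, ev_O h] with w a b
      simp only [σ, a, Matrix.mul_inv_rev, nonsing_inv_mul_cancel_right _ _ (cc_det hg b).isUnit]
  let good : C → Prop := fun x => ∀ i, x ∈ (A.e i).source → Un (σ i) (A.e i x)
  have gd : ∀ i, ∀ z ∈ ball (0 : ℂ) A.R, Un (σ i) z → good (pt A i z) := fun i z hz a j b =>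
    ((bi_tr (A := A) (i := i) (j := j) ⟨hz, b⟩).un (F := σ j) (F' := fun w => σ i w * g i j w)
      (EventuallyEq.symm (tr i j z ⟨hz, b⟩))).1 (a.mul (cc_un hg ⟨hz, b⟩))
  let G : C → C → Mn n := fun x => if good x then fun _ => 1 else
    fun y => σ (A.cov x).choose (A.e (A.cov x).choose y)
  have key : ∀ i, ∀ z ∈ ball (0 : ℂ) A.R, (good (pt A i z) ∧ G (pt A i z) = fun _ => 1) ∨
      ∃ j, z ∈ A.O i j ∧ ∀ᶠ w in 𝓝[≠] z, G (pt A i z) (pt A i w) = σ i w * g i j w :=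
    fun i z hz => by
      by_cases c : good (pt A i z)
      · exact .inl ⟨c, if_pos c⟩
      · refine .inr ⟨_, (pick_spec hz i).1, (tr i _ z (pick_spec hz i).1).mono fun w a => ?_⟩
        rw [← a, show G (pt A i z) = _ from if_neg c]
        rfl
  have mn : ∀ i, ∀ z ∈ ball (0 : ℂ) A.R, Me (fun w => G (pt A i z) (pt A i w)) z ∧
      Nd (fun w => G (pt A i z) (pt A i w)) z := fun i z hz => by
    rcases key i z hz with ⟨-, a⟩ | ⟨j, a, b⟩
    · rw [a]; exact ⟨un_one.me, un_one.nd⟩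
    · exact ⟨((me i z hz).mul (cc_un hg a).me).congr (EventuallyEq.symm b),
        ((nd i z hz).mul (cc_un hg a).nd).congr (EventuallyEq.symm b)⟩
  refine ⟨⟨G, pt_ind A fun i z hz => ((ok i).me (mem_tgt.2 hz)).1 (mn i z hz).1,
    pt_ind A fun i z hz => ((ok i).ord (f := fun y => (G (pt A i z) y).det)
      (mem_tgt.2 hz)).symm.trans_ne ((meromorphicOrderAt_ne_top_iff_eventually_ne_zero
        (mn i z hz).1.det).2 (mn i z hz).2), fin_of_ev (ev_ind (A := A) fun i z hz => ?_)⟩,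
    σ, hg, fun i z hz => un_iff.2 ?_, tr⟩
  · filter_upwards [(me i z hz).ev_un (nd i z hz), ev_ball hz] with w a b c
    exact c (if_pos (gd i w b a))
  · rcases key i z hz with ⟨c, a⟩ | ⟨j, a, b⟩
    · have := c i (map_tgt hz)
      rw [rinv hz] at this
      simpa only [a, inv_one, Matrix.one_mul] using this
    · refine (cc_un hg a).inv.congr ?_
      filter_upwards [b, nd i z hz] with w c d
      simp only [c, Matrix.mul_inv_rev, nonsing_inv_mul_cancel_right _ _ d.isUnit]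

/-! ### maps -/

section maps
variable {E : VB C m} {g : Cy A (Mn m)} {σ : Fm A (Mn m)} {E' : VB C n} {g' : Cy A (Mn n)}
  {σ' : Fm A (Mn n)}

theorem ho_gam (ok : Ok A) (h : Fr A E g σ) (h' : Fr A E' g' σ') (hz : z ∈ ball (0 : ℂ) A.R)
    {φ : ℂ → Mr n m} : Ho (fun w => (gam A E' i z w)⁻¹ * φ w * gam A E i z w) z ↔
      Ho (fun w => (σ' i w)⁻¹ * φ w * σ i w) z := by
  refine ⟨fun a => (((h'.un (i := i) hz).inv.ho.mul a).mul (h.un (i := i) hz).ho).congr ?_,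
    fun a => (((h'.un (i := i) hz).ho.mul a).mul (h.un (i := i) hz).inv.ho).congr ?_⟩
  · filter_upwards [gam_nd ok E (i := i) hz, gam_nd ok E' (i := i) hz] with w b c
    simp only [Matrix.mul_inv_rev, nonsing_inv_nonsing_inv _ c.isUnit, Matrix.mul_assoc,
      mul_nonsing_inv_cancel_left _ _ b.isUnit, mul_nonsing_inv_cancel_left _ _ c.isUnit]
  · filter_upwards [gam_nd ok E (i := i) hz, h.nd (i := i) hz, h'.nd (i := i) hz] with w b c d
    simp only [Matrix.mul_inv_rev, nonsing_inv_nonsing_inv _ b.isUnit, Matrix.mul_assoc,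
      mul_nonsing_inv_cancel_left _ _ c.isUnit, mul_nonsing_inv_cancel_left _ _ d.isUnit]

theorem un_gam {E : VB C n} {g : Cy A (Mn n)} {σ : Fm A (Mn n)} (ok : Ok A) (h : Fr A E g σ)
    (h' : Fr A E' g' σ') (hz : z ∈ ball (0 : ℂ) A.R)
    {φ : ℂ → Mn n} : Un (fun w => (gam A E' i z w)⁻¹ * φ w * gam A E i z w) z ↔
      Un (fun w => (σ' i w)⁻¹ * φ w * σ i w) z := by
  refine ⟨fun a => (((h'.un (i := i) hz).inv.mul a).mul (h.un (i := i) hz)).congr ?_,
    fun a => (((h'.un (i := i) hz).mul a).mul (h.un (i := i) hz).inv).congr ?_⟩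
  · filter_upwards [gam_nd ok E (i := i) hz, gam_nd ok E' (i := i) hz] with w b c
    simp only [Matrix.mul_inv_rev, nonsing_inv_nonsing_inv _ c.isUnit, Matrix.mul_assoc,
      mul_nonsing_inv_cancel_left _ _ b.isUnit, mul_nonsing_inv_cancel_left _ _ c.isUnit]
  · filter_upwards [gam_nd ok E (i := i) hz, h.nd (i := i) hz, h'.nd (i := i) hz] with w b c d
    simp only [Matrix.mul_inv_rev, nonsing_inv_nonsing_inv _ b.isUnit, Matrix.mul_assoc,
      mul_nonsing_inv_cancel_left _ _ c.isUnit, mul_nonsing_inv_cancel_left _ _ d.isUnit]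

end maps

/-! ### determinants and divisors -/

theorem ord_zero {f : ℂ → ℂ} (hf : MeromorphicAt f z) (o : meromorphicOrderAt f z = 0) :
    AnalyticAt ℂ (hx f) z ∧ hx f z ≠ 0 ∧ f =ᶠ[𝓝[≠] z] hx f := by
  obtain ⟨g, a, b, c⟩ := (meromorphicOrderAt_eq_int_iff (n := 0) hf).1 o
  have c : f =ᶠ[𝓝[≠] z] g := c.mono fun w e => by simpa using e
  have d := hx_ev (a.eventually_analyticAt.mono fun _ e => e.continuousAt) c
  exact ⟨a.congr d.symm, d.self_of_nhds ▸ b, c.trans (pn d.symm)⟩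

variable {D : C →₀ ℤ}

theorem Dv.ne {l : Cy A ℂ} {s : Fm A ℂ} (h : Dv A D l s) (hz : z ∈ ball (0 : ℂ) A.R) :
    ∀ᶠ w in 𝓝[≠] z, s i w ≠ 0 :=
  (meromorphicOrderAt_ne_top_iff_eventually_ne_zero (h.mer i z hz)).1
    ((h.ord i z hz).trans_ne WithTop.coe_ne_top)

/-- the section `1 / f` of the determinant -/
abbrev ds (A : At C) (f : C → ℂ) (σ : Fm A (Mn n)) : Fm A ℂ :=
  fun i w => (f (pt A i w) * (σ i w).det)⁻¹

theorem Fr.dv_iff {E : VB C n} {g : Cy A (Mn n)} {σ : Fm A (Mn n)} (h : Fr A E g σ) (ok : Ok A)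
    {f : C → ℂ} : Dv A D (fun i j z => (g i j z).det) (ds A f σ) ↔ E.DetIso D f := by
  have k : ∀ i, ∀ z ∈ ball (0 : ℂ) A.R, MerAt (pt A i z) f → meromorphicOrderAt (ds A f σ i) z =
      -ord (pt A i z) fun y => f y * (E.g (pt A i z) y).det := fun i z hz a => by
    rw [← (ok i).ord (mem_tgt.2 hz), ← h.ord_det ok hz (((ok i).mer (mem_tgt.2 hz)).2 a)]
    exact fun_meromorphicOrderAt_inv
  refine ⟨fun a => pt_ind A fun i z hz => ?_, fun a => ⟨h.cc.det, fun i z hz =>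
    ((((ok i).mer (mem_tgt.2 hz)).2 (a _).1).mul (h.me ok hz).det).inv, fun i z hz => ?_,
    fun i j z hz => ?_⟩⟩
  · have b : MerAt (pt A i z) f := ((ok i).mer (mem_tgt.2 hz)).1
      (((a.mer i z hz).inv.mul (h.me ok (i := i) hz).det.inv).congr
        (Eventually.mono (h.nd (i := i) hz) fun w c => by
          simp only [Pi.mul_apply, Pi.inv_apply, inv_inv, mul_inv_cancel_right₀ c]))
    refine ⟨b, ?_⟩
    have := (k i z hz b).symm.trans (a.ord i z hz)
    rw [← neg_neg (ord _ _), this]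
    rfl
  · rw [k i z hz (a _).1, (a _).2, ← WithTop.LinearOrderedAddCommGroup.coe_neg, neg_neg]
  · filter_upwards [h.tr i j z hz, ev_O hz] with w b c
    have := cc_det h.cc c
    simp only [ds, b, pt_tr c, det_mul]
    rw [← mul_assoc (f _), mul_inv (_ * _), mul_left_comm, mul_inv_cancel₀ this, mul_one]

theorem Dv.iso {l l' : Cy A ℂ} {s s' : Fm A ℂ} (h : Dv A D l s) (h' : Dv A D l' s') :
    ∃ u : Fm A ℂ, A.Hl u ∧ (∀ i, ∀ z ∈ ball (0 : ℂ) A.R, u i z ≠ 0 ∧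
      ∀ᶠ w in 𝓝[≠] z, s' i w = u i w * s i w) ∧
      ∀ i j, ∀ z ∈ A.O i j, u i z * l i j z = l' i j z * u j (A.tr i j z) := by
  have a : ∀ i, ∀ z ∈ ball (0 : ℂ) A.R, _ := fun i z hz =>
    ord_zero ((h'.mer i z hz).div (h.mer i z hz)) (by
      rw [meromorphicOrderAt_div (h'.mer i z hz) (h.mer i z hz), h.ord i z hz, h'.ord i z hz,
        ← WithTop.LinearOrderedAddCommGroup.coe_sub, sub_self]; rfl)
  have b : ∀ i, ∀ z ∈ ball (0 : ℂ) A.R, ∀ᶠ w in 𝓝[≠] z, s' i w = hx (s' i / s i) w * s i w :=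
    fun i z hz => by
      filter_upwards [(a i z hz).2.2, h.ne (i := i) hz] with w c d
      rw [← c, Pi.div_apply, div_mul_cancel₀ _ d]
  refine ⟨fun i => hx (s' i / s i), an_of_hl fun i z hz => (a i z hz).1,
    fun i z hz => ⟨(a i z hz).2.1, b i z hz⟩, fun i j z hz => ?_⟩
  refine eq_of_ev (f := fun w => hx (s' i / s i) w * l i j w)
    (g := fun w => l' i j w * hx (s' j / s j) (A.tr i j w))
    ((a i z hz.1).1.mul (h.cc.an hz)).continuousAt
    ((h'.cc.an hz).mul ((a j _ (tr_ball hz)).1.comp (an_tr hz))).continuousAt ?_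
  filter_upwards [b i z hz.1, (bi_tr hz).tend.eventually (b j _ (tr_ball hz)), h.tr i j z hz,
    h'.tr i j z hz, (bi_tr hz).tend.eventually (h.ne (i := j) (tr_ball hz))] with w e1 e2 e3 e4 e5
  refine mul_right_cancel₀ e5 ?_
  rw [mul_assoc, ← e3, ← e1, mul_assoc, ← e2, e4]

theorem Dv.map {l l' : Cy A ℂ} {s u : Fm A ℂ} (h : Dv A D l s) (hl : A.Cc l') (u1 : A.Hl u)
    (u2 : ∀ i, ∀ z ∈ ball (0 : ℂ) A.R, u i z ≠ 0)
    (u3 : ∀ i j, ∀ z ∈ A.O i j, u i z * l i j z = l' i j z * u j (A.tr i j z)) :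
    Dv A D l' fun i w => u i w * s i w where
  cc := hl
  mer i z hz := (u1.an hz i).meromorphicAt.mul (h.mer i z hz)
  ord i z hz := (meromorphicOrderAt_mul_of_ne_zero (u1.an hz i) (u2 i z hz)).trans (h.ord i z hz)
  tr i j z hz := by
    filter_upwards [h.tr i j z hz, ev_O hz] with w a b
    rw [a, ← mul_assoc, u3 i j w b, mul_assoc]

theorem Dv.congr {l : Cy A ℂ} {s s' : Fm A ℂ} (h : Dv A D l s)
    (e : ∀ i, ∀ z ∈ ball (0 : ℂ) A.R, s i =ᶠ[𝓝[≠] z] s' i) : Dv A D l s' where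
  cc := h.cc
  mer i z hz := (h.mer i z hz).congr (e i z hz)
  ord i z hz := (meromorphicOrderAt_congr (e i z hz)).symm.trans (h.ord i z hz)
  tr i j z hz := by
    filter_upwards [h.tr i j z hz, e i z hz.1,
      (bi_tr hz).tend.eventually (e j _ (tr_ball hz))] with w a b c
    rw [← b, ← c, a]

/-- the determinant condition of the statement gives an isomorphism `u : l → det g` -/
theorem Fr.detI {E : VB C n} {g : Cy A (Mn n)} {σ : Fm A (Mn n)} (h : Fr A E g σ) (ok : Ok A)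
    {l : Cy A ℂ} {s : Fm A ℂ} (hs : Dv A D l s) {f : C → ℂ} (hf : E.DetIso D f) :
    ∃ u, DetI A g l u ∧ ∀ i, ∀ z ∈ ball (0 : ℂ) A.R, ∀ᶠ w in 𝓝[≠] z,
      f (pt A i w) * (σ i w).det * (u i w * s i w) = 1 := by
  have d := (h.dv_iff ok).2 hf
  obtain ⟨u, a, b, c⟩ := hs.iso d
  refine ⟨u, ⟨a, fun i z hz => (b i z hz).1, c⟩, fun i z hz => ?_⟩
  filter_upwards [(b i z hz).2, d.ne (i := i) hz] with w e1 e2
  rw [← e1, mul_inv_cancel₀ fun e => e2 (by rw [ds, e, _root_.inv_zero])]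

theorem Fr.detIso [T2Space C] {E : VB C n} {g : Cy A (Mn n)} {σ : Fm A (Mn n)} (h : Fr A E g σ)
    (ok : Ok A) {l : Cy A ℂ} {s u : Fm A ℂ} (hs : Dv A D l s) (hu : DetI A g l u) :
    ∃ f, E.DetIso D f ∧ ∀ i, ∀ z ∈ ball (0 : ℂ) A.R, ∀ᶠ w in 𝓝[≠] z,
      f (pt A i w) * (σ i w).det * (u i w * s i w) = 1 := by
  have d := hs.map h.cc.det hu.hol hu.ne hu.tr
  have k : ∀ i, ∀ z ∈ ball (0 : ℂ) A.R, ∀ᶠ w in 𝓝[≠] z,
      A.gl (fun i w => ((σ i w).det * (u i w * s i w))⁻¹) (pt A i w) * (σ i w).det *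
        (u i w * s i w) = 1 := fun i z hz => by
    filter_upwards [gl_ev (u := fun i w => ((σ i w).det * (u i w * s i w))⁻¹) (i := i)
      (fun i j z hz => by
        filter_upwards [h.tr i j z hz, d.tr i j z hz] with w a b
        rw [a, b, det_mul, mul_assoc]) hz, h.nd (i := i) hz, d.ne (i := i) hz] with w a b c
    rw [a, mul_assoc, inv_mul_cancel₀ (mul_ne_zero b c)]
  exact ⟨_, (h.dv_iff ok).1 (d.congr fun i z hz => (k i z hz).mono fun w a =>
    eq_inv_of_mul_eq_one_right a), k⟩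

theorem exists_dv [IsManifold 𝓘(ℂ) ω C] (ok : Ok A) (D : C →₀ ℤ) : ∃ l s, Dv A D l s := by
  classical
  let q : C → C → ℂ := fun x y => (chartAt ℂ x y - ctr x) ^ (-D x)
  have e : ∀ x, loc x (q x) =ᶠ[𝓝[≠] ctr x] fun z => (z - ctr x) ^ (-D x) := fun x =>
    pn (eventually_of_mem ((chartAt ℂ x).open_target.mem_nhds (ctr_mem x)) fun z hz => by
      simp only [loc, q, (chartAt ℂ x).right_inv hz])
  have a : ∀ x, MerAt x (q x) := fun x =>
    ((an_sub (ctr x) (ctr x)).meromorphicAt.zpow (-D x)).congr (e x).symm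
  have o : ∀ x, ord x (q x) = ((-D x : ℤ) : WithTop ℤ) := fun x =>
    (meromorphicOrderAt_congr (e x)).trans fun_meromorphicOrderAt_zpow_id_sub_const
  let E : VB C 1 := ⟨fun x y => Matrix.of fun _ _ => q x y, fun x _ _ => a x,
    fun x => by simpa only [det_unique, of_apply, o] using WithTop.coe_ne_top,
    D.hasFiniteSupport.subset fun x hx h0 => hx (by
      funext y
      ext i j
      simp [q, h0, one_apply, Subsingleton.elim i j])⟩
  obtain ⟨g, σ, h⟩ := toFr ok E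
  refine ⟨_, _, (h.dv_iff ok (f := fun _ => 1)).2 fun x => ⟨MeromorphicAt.const _ _, ?_⟩⟩
  simpa only [E, det_unique, of_apply, one_mul] using o x

end Vale.Agent.P275AD
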