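import Vale.Agent.P275AD.Stab
import Vale.Agent.P275MB.Iso

/-!
# P275, block AD: smaller discs, changes of frames, objects without pole at `λ = 0`
-/

set_option linter.unusedSectionVars false

open scoped Matrix.Norms.Operator Topology ContDiff Manifold
open Filter Set Matrix Metric
open Vale.Agent.P281Z.Hm (an_ent an_of an_mul an_det an_inv an_trace an_mulVec)
open Vale.Agent.P275ST (VB Higgs deg)
open Vale.Agent.P275GC Vale.Agent.P275GC.At Vale.Agent.P275NA
open Vale.Agent.P275MO (Dat Good off InvC)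
open Vale.Agent.P275KR (Sp)

noncomputable section

namespace Vale.Agent.P275AD

section zero
variable {C : Type} [TopologicalSpace C] {A : At C} {i j : Fin A.N} {w : ℂ} {n : ℕ} {x : C}
  {l : Cy A ℂ} {z z' : Dat C A.N n} {a a' φ : Fm A (Mn n)}

theorem ev_off (x : C) (hw : w ∈ ball (0 : ℂ) A.R) : ∀ᶠ y in 𝓝[≠] w, y ∈ off A x i := by
  by_cases c : A.e i x = w
  · filter_upwards [ev_ball hw, ev_ne w] with y e1 e2
    exact ⟨e1, fun e => e2 (by rw [← c, ← e, rinv e1])⟩
  · filter_upwards [ev_ball hw, pn (isOpen_ne.mem_nhds (Ne.symm c))] with y e1 e2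
    exact ⟨e1, fun e => e2 (by rw [← e, rinv e1])⟩

theorem off_nhds (hw : w ∈ off A x i) : ∀ᶠ y in 𝓝 w, y ∈ off A x i := by
  filter_upwards [eventually_nhdsWithin_iff.1 (ev_off (i := i) x hw.1)] with y e
  by_cases c : y = w
  · exact c ▸ hw
  · exact e c

/-- `a` is the connection matrix of `z`, extended over the pole -/
def Agr (A : At C) (z : Dat C A.N n) (a : Fm A (Mn n)) : Prop :=
  ∀ i, ∀ w ∈ off A z.x i, a i w = z.a i w

theorem good_an (g : Good A l z) (hw : w ∈ off A z.x i) : AnalyticAt ℂ (z.a i) w :=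
  (g.hol i).analyticAt (off_nhds hw)

/-- without residue there is no pole -/
theorem exists_agr (g : Good A l z) (hR : z.R = 0) : ∃ a, A.Hl a ∧ Agr A z a := by
  have k : ∀ i, ∀ w ∈ ball (0 : ℂ) A.R, Ho (z.a i) w := fun i w hw => by
    by_cases c : w ∈ off A z.x i
    · exact ho_an (good_an g c)
    · have e : (A.e i).symm w = z.x := by_contra fun e => c ⟨hw, e⟩
      have t := g.pole i (e ▸ map_tgt hw)
      rw [← e, rinv hw, hR, Matrix.mul_zero, Matrix.zero_mul] at t
      have f : AnalyticAt ℂ (fun y => (y - w) • z.a i y) w := by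
        refine Complex.analyticAt_of_differentiable_on_punctured_nhds_of_continuousAt ?_ ?_
        · exact (ev_off z.x hw).mono fun y e =>
            ((an_sub w y).smul (good_an g e)).differentiableAt
        · rw [← continuousWithinAt_compl_self, ContinuousWithinAt, sub_self, zero_smul]
          exact t
      obtain ⟨p, hp⟩ := f
      refine ⟨_, ⟨_, hp.has_fpower_series_dslope_fslope⟩, (ev_ne w).mono fun y e => ?_⟩
      rw [dslope_of_ne _ e, slope_def_module, sub_self, zero_smul, sub_zero,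
        inv_smul_smul₀ (sub_ne_zero.2 e)]
  exact ⟨fun i => hx (z.a i), an_of_hl fun i w hw => (k i w hw).an,
    fun i w hw => hx_eq (good_an g hw).continuousAt EventuallyEq.rfl⟩

theorem Agr.ev (h : Agr A z a) (hw : w ∈ ball (0 : ℂ) A.R) : ∀ᶠ y in 𝓝[≠] w, a i y = z.a i y :=
  (ev_off z.x hw).mono (h i)

theorem Agr.trace (h : Agr A z a) (ha : A.Hl a) (g : Good A l z) (hw : w ∈ ball (0 : ℂ) A.R) :
    (a i w).trace = 0 :=
  eq_of_ev (f := fun y => (a i y).trace) (g := fun _ => 0) (an_trace (ha.an hw i)).continuousAt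
    continuousAt_const ((ev_off z.x hw).mono fun y e => by rw [← g.tr i y e, ← h i y e])

theorem Agr.hig (h : Agr A z a) (ha : A.Hl a) (g : Good A l z) (h0 : z.lam = 0) :
    Hig A A.d z.g a where
  cc := g.cc
  hol := ha
  tr i j w hw := by
    refine eq_of_ev (f := fun y => a i y * z.g i j y)
      (g := fun y => A.d i j y • (z.g i j y * a j (A.tr i j y)))
      (an_mul (ha.an hw.1 i) (g.cc.an hw)).continuousAt ((an_d hw).smul (an_mul (g.cc.an hw)
        ((ha.an (tr_ball hw) j).comp (an_tr hw)))).continuousAt ?_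
    filter_upwards [ev_off (i := i) z.x hw.1, ev_O hw] with y e1 e2
    have := P275MB.Good.law' g e2 e1.2
    rw [h0, zero_smul, add_zero, zero_mul, mul_zero, zero_smul, add_zero] at this
    rw [h i y e1, h j _ (P275MB.off_tr e2 e1.2), this]

theorem Agr.inv_iff (h : Agr A z a) (ha : A.Hl a) (h0 : z.lam = 0) {k : ℕ} {S : Fm A (Sp n)}
    (hS : Sub A z.g k S) : InvC A z S ↔ Inv A a S := by
  refine ⟨fun c i w hw v hv => ?_, fun c i w hw s _ hs => ?_⟩
  · obtain ⟨t, ht⟩ := hS.fr i w hw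
    obtain ⟨u, rfl⟩ := ht.rg.self_of_nhds.ge hv
    refine P275KR.fr_mem ht (u := fun y => a i y *ᵥ (t y *ᵥ u))
      (an_mulVec (ha.an hw i) (an_mulVec ht.an analyticAt_const)).continuousAt ?_
    filter_upwards [ev_off (i := i) z.x hw, pn (P275KR.fr_ev ht)] with y e1 e2
    have := c i y e1 _ (an_mulVec e2.an (analyticAt_const (v := u)))
      (e2.rg.mono fun _ e => e.le ⟨u, rfl⟩)
    rwa [h0, zero_smul, zero_add, ← h i y e1] at this
  · rw [h0, zero_smul, zero_add, ← h i w hw]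
    exact c i w hw.1 _ hs.self_of_nhds

theorem Agr.stab_iff [T2Space C] (h : Agr A z a) (ha : A.Hl a) (g : Good A l z) (hl : A.Cc l)
    (h0 : z.lam = 0) : P275MO.Stab A l z ↔ Stab A z.g a := by
  have e : A.degM z.g = A.deg l := deg_congr g.cc.det hl g.det
  exact ⟨fun s k S b c d f => e ▸ s k S b c d ((h.inv_iff ha h0 d).2 f),
    fun s k S b c d f => e ▸ s k S b c d ((h.inv_iff ha h0 d).1 f)⟩

theorem Agr.hom_iff (h : Agr A z a) (h' : Agr A z' a') (ha : A.Hl a) (ha' : A.Hl a')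
    (h0 : z.lam = 0) (h0' : z'.lam = 0) (ex : z'.x = z.x) :
    P275MO.Hom A z z' φ ↔ Hom A z.g a z'.g a' φ := by
  refine ⟨fun f => ⟨f.hol, f.law, fun i w hw => eq_of_ev (f := fun y => φ i y * a i y)
    (g := fun y => a' i y * φ i y) (an_mul (f.hol.an hw i) (ha.an hw i)).continuousAt
    (an_mul (ha'.an hw i) (f.hol.an hw i)).continuousAt ?_⟩,
    fun f => ⟨h0'.trans h0.symm, ex, f.hol, f.tr, fun i w hw => ?_⟩⟩
  · filter_upwards [ev_off (i := i) z.x hw] with y e
    rw [h i y e, h' i y (ex ▸ e), ← f.con i y e, h0, zero_smul, zero_add]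
  · rw [h0, zero_smul, zero_add, ← h i w hw, ← h' i w (ex ▸ hw), f.com i w hw.1]

/-- the object without pole given by a Higgs bundle -/
def dat (A : At C) (x : C) (g : Cy A (Mn n)) (a : Fm A (Mn n)) : Dat C A.N n :=
  ⟨0, x, g, a, fun i => g i (A.cov x).choose (A.e i x), 0⟩

theorem good_dat {g : Cy A (Mn n)} (x : C) (h : Hig A A.d g a)
    (hd : ∀ i j, ∀ w ∈ A.O i j, (g i j w).det = l i j w)
    (tr : ∀ i, ∀ w ∈ ball (0 : ℂ) A.R, (a i w).trace = 0) : Good A l (dat A x g a) := by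
  have m : ∀ i j, x ∈ (A.e i).source → x ∈ (A.e j).source → A.e i x ∈ A.O i j := fun i j a b =>
    ⟨map_src a, show (A.e i).symm _ ∈ _ by rwa [(A.e i).left_inv a]⟩
  have c := (A.cov x).choose_spec.1
  refine ⟨h.cc, hd, fun i => (h.hol i).mono fun _ e => e.1, fun i w e => tr i w e.1,
    fun i j w e _ => ⟨0, by simp [dat, h.tr i j w e]⟩, fun i e => cc_det h.cc (m i _ e c),
    fun i j e f => ?_, fun i e => ?_⟩
  · have := h.cc.mul i j _ _ (m i j e f) (m i _ e c)
    rwa [At.tr, (A.e i).left_inv (show x ∈ _ from e)] at this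
  · have : ContinuousAt (fun w => (w - A.e i x) • a i w) (A.e i x) :=
      ((an_sub _ _).smul (h.hol.an (map_src e) i)).continuousAt
    simpa [dat] using this.tendsto.mono_left nhdsWithin_le_nhds

/-- a change of frames which normalises the determinant -/
theorem exists_norm (hn : 0 < n) {g : Cy A (Mn n)} {u : Fm A ℂ} [ChartedSpace ℂ C]
    (h : Hig A A.d g a) (hu : DetI A g l u) : ∃ (g' : Cy A (Mn n)) (a' φ : Fm A (Mn n)), A.Cc g' ∧
      A.Hl a' ∧ Hom A g' a' g a φ ∧ (∀ i, ∀ w ∈ ball (0 : ℂ) A.R, (φ i w).det = u i w) ∧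
      ∀ i j, ∀ w ∈ A.O i j, (g' i j w).det = l i j w := by
  let φ : Fm A (Mn n) := fun i w => diagonal (Function.update 1 ⟨0, hn⟩ (u i w))
  have d : ∀ i w, (φ i w).det = u i w := fun i w => by
    simp [φ, Finset.prod_update_of_mem]
  have ne : ∀ i, ∀ w ∈ ball (0 : ℂ) A.R, (φ i w).det ≠ 0 := fun i w e => (d i w).trans_ne (hu.ne i w e)
  have an : ∀ i, ∀ w ∈ ball (0 : ℂ) A.R, AnalyticAt ℂ (φ i) w := fun i w e => an_of fun b c => by
    simp only [φ, diagonal_apply, Function.update_apply]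
    split_ifs
    exacts [hu.hol.an e i, analyticAt_const, analyticAt_const]
  refine ⟨fc A φ g, fe A φ a, φ, ⟨fun i j w e => (an_mul (an_mul (an_inv (an i w e.1) (ne i w e.1))
    (h.cc.an e)) ((an j _ (tr_ball e)).comp (an_tr e))).differentiableAt.differentiableWithinAt,
    fun i w e => ?_, fun i j k w e f => ?_⟩, an_of_hl fun i w e => an_mul (an_mul (an_inv (an i w e)
      (ne i w e)) (h.hol.an e i)) (an i w e), ⟨an_of_hl an, fun i j w e => ?_, fun i w e => ?_⟩,
    fun i w _ => d i w, fun i j w e => ?_⟩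
  · rw [fc, h.cc.one i w e, tr_self e, Matrix.mul_one, nonsing_inv_mul _ (ne i w e).isUnit]
  · simp only [fc, h.cc.mul i j k w e f, tr_tr e, Matrix.mul_assoc,
      mul_nonsing_inv_cancel_left _ _ (ne j _ (tr_ball e)).isUnit]
  · rw [fc, Matrix.mul_assoc, mul_nonsing_inv_cancel_left _ _ (ne i w e.1).isUnit]
  · rw [fe, Matrix.mul_assoc, mul_nonsing_inv_cancel_left _ _ (ne i w e).isUnit]
  · rw [fc, Matrix.mul_assoc, Matrix.det_mul, Matrix.det_mul, d, ← hu.tr i j w e, det_nonsing_inv, d,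
      Ring.inverse_eq_inv', inv_mul_cancel_left₀ (hu.ne i w e.1)]

end zero

variable {C : Type} [TopologicalSpace C] [ChartedSpace ℂ C] {A : At C} {n : ℕ} {r r' : ℝ}
  {h1 : 1 < r} {h2 : r ≤ A.R} {D : C →₀ ℤ} {g g' : Cy A (Mn n)} {a a' σ φ : Fm A (Mn n)}

theorem Ok.res (ok : Ok A) : Ok (A.res r h1 h2) := fun i x hx => ok i x hx.1

theorem Dv.res {l : Cy A ℂ} {s : Fm A ℂ} (h : Dv A D l s) : Dv (A.res r h1 h2) D l s :=
  ⟨h.cc.res, fun i z e => h.mer i z (ball_subset_ball h2 e),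
    fun i z e => h.ord i z (ball_subset_ball h2 e), fun i j z e => h.tr i j z (res_O.1 e).1⟩

theorem Fr.res {E : VB C n} (h : Fr A E g σ) : Fr (A.res r h1 h2) E g σ :=
  ⟨h.cc.res, fun i z e => h.lat i z (ball_subset_ball h2 e), fun i j z e => h.tr i j z (res_O.1 e).1⟩

theorem MetR.res {H : C → Mn n} {k : Fm A (Mn n)} (h : MetR A σ H k) :
    MetR (A.res r h1 h2) σ H k := fun i z e => h i z (ball_subset_ball h2 e)

theorem Fr.iso {E : VB C n} (h : Fr A E g σ) (hg : A.Cc g') (f1 : A.Hl φ)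
    (f2 : ∀ i j, ∀ z ∈ A.O i j, φ i z * g' i j z = g i j z * φ j (A.tr i j z))
    (d : ∀ i, ∀ z ∈ ball (0 : ℂ) A.R, (φ i z).det ≠ 0) : Fr A E g' fun i w => σ i w * φ i w where
  cc := hg
  lat i z e := un_iff.2 (by
    simpa only [Matrix.mul_assoc] using (h.un (i := i) e).mul (un_an (f1.an e i) (d i z e)))
  tr i j z e := by
    filter_upwards [h.tr i j z e, ev_O e] with w e1 e2
    rw [e1, Matrix.mul_assoc, ← f2 i j w e2, Matrix.mul_assoc]

variable {E : Higgs C n D}

theorem Ad.res (h : Ad A E g a σ) : Ad (A.res r h1 h2) E g a σ :=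
  ⟨h.fr.res, h.hol.res, fun i z e => h.th i z (ball_subset_ball h2 e)⟩

theorem Ad.mono (h : Ad (A.res r h1 h2) E g a σ) (h1' : 1 < r') (h3 : r' ≤ r) :
    Ad (A.res r' h1' (h3.trans h2)) E g a σ :=
  have := Ad.res (h1 := h1') (h2 := h3) h
  (P275MB.rr h1' h3 fun B => Ad (B.at h1') E g a σ).1 this

/-- transport along an isomorphism `φ : (g', a') → (g, a)` -/
theorem Ad.iso (h : Ad A E g a σ) (hg : A.Cc g') (ha : A.Hl a') (f : Hom A g' a' g a φ)
    (d : ∀ i, ∀ z ∈ ball (0 : ℂ) A.R, (φ i z).det ≠ 0) :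
    Ad A E g' a' fun i w => σ i w * φ i w where
  fr := h.fr.iso hg f.hol f.tr d
  hol := ha
  th i z e := by
    filter_upwards [h.th i z e, ev_ball e] with w e1 e2
    rw [Matrix.mul_assoc, f.com i w e2, ← Matrix.mul_assoc, e1, Matrix.mul_assoc]

end Vale.Agent.P275AD
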