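import Vale.Agent.P275AD.Frame

/-!
# P275, block AD: Higgs fields, isomorphisms, differentials, the Hitchin map
-/

set_option linter.unusedSectionVars false

open scoped Matrix.Norms.Operator Topology ContDiff Manifold
open Filter Set Matrix Metric
open Vale.Agent.P281Z.Hm (an_ent an_of an_mul an_det an_inv an_trace)
open Vale.Agent.P275ST (ctr loc jac MerAt ord HolExt SmExt VB Higgs MerMx deg H0 Base)
open Vale.Agent.P275GC Vale.Agent.P275GC.At Vale.Agent.P275NA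

noncomputable section

namespace Vale.Agent.P275AD

theorem lcancel {n m : Type} [Fintype n] [DecidableEq n] {M : Matrix n n ℂ} {X Y : Matrix n m ℂ}
    (h : M.det ≠ 0) (e : M * X = M * Y) : X = Y := by
  rw [← nonsing_inv_mul_cancel_left M X h.isUnit, e, nonsing_inv_mul_cancel_left M Y h.isUnit]

theorem rcancel {n m : Type} [Fintype n] [DecidableEq n] {M : Matrix n n ℂ} {X Y : Matrix m n ℂ}
    (h : M.det ≠ 0) (e : X * M = Y * M) : X = Y := by
  rw [← mul_nonsing_inv_cancel_right M X h.isUnit, e, mul_nonsing_inv_cancel_right M Y h.isUnit]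

section cp
variable {n : ℕ} {k : ℕ}

theorem cp_smul (hk : k ≤ n) (c : ℂ) (M : Mn n) :
    (c • M).charpoly.coeff (n - k) = c ^ k * M.charpoly.coeff (n - k) := by
  have a := fun M : Mn n => charpoly_coeff_eq_sum_minors M k (by simpa using hk)
  simp only [Fintype.card_fin] at a
  rw [a, a, mul_left_comm, Finset.mul_sum (a := c ^ k)]
  refine congrArg _ (Finset.sum_congr rfl fun s hs => ?_)
  rw [submatrix_smul, Pi.smul_apply, Pi.smul_apply, det_smul, Fintype.card_coe,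
    (Finset.mem_powersetCard.1 hs).2]

theorem cp_an (hk : k ≤ n) {a : ℂ → Mn n} {z : ℂ} (h : AnalyticAt ℂ a z) :
    AnalyticAt ℂ (fun w => (a w).charpoly.coeff (n - k)) z := by
  have a := fun M : Mn n => charpoly_coeff_eq_sum_minors M k (by simpa using hk)
  simp only [Fintype.card_fin] at a
  simp only [a]
  exact analyticAt_const.mul (Finset.analyticAt_fun_sum _ fun s _ =>
    an_det (an_of fun b c => an_ent h _ _))

theorem cp_conj {S X Y : Mn n} (h : S.det ≠ 0) (e : S * X = Y * S) : X.charpoly = Y.charpoly := by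
  rw [← nonsing_inv_mul_cancel_left S X h.isUnit, e, charpoly_mul_comm,
    mul_nonsing_inv_cancel_right S Y h.isUnit]

theorem tr_conj {S X Y : Mn n} (h : S.det ≠ 0) (e : S * X = Y * S) : X.trace = Y.trace := by
  rw [← nonsing_inv_mul_cancel_left S X h.isUnit, e, trace_mul_comm,
    mul_nonsing_inv_cancel_right S Y h.isUnit]

end cp

variable {C : Type} [TopologicalSpace C] [ChartedSpace ℂ C] [IsManifold 𝓘(ℂ) ω C] {A : At C}
  {i j : Fin A.N} {z : ℂ} {n m : ℕ}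

theorem Ok.jc_ne (ok : Ok A) (hz : z ∈ ball (0 : ℂ) A.R) : jc (A.e i) z ≠ 0 :=
  (ok i).jc_ne (mem_tgt.2 hz)

/-- `a` is the matrix of `θ` in the frames `σ` -/
def Th (A : At C) (σ : Fm A (Mn n)) (θ : C → Mn n) (a : Fm A (Mn n)) : Prop :=
  ∀ i, ∀ z ∈ ball (0 : ℂ) A.R, ∀ᶠ w in 𝓝[≠] z,
    σ i w * a i w = (jc (A.e i) w • θ (pt A i w)) * σ i w

/-- `u` is the matrix of `φ` in the frames `σ`, `σ'` -/
def Rel (A : At C) (σ : Fm A (Mn m)) (σ' : Fm A (Mn n)) (φ : C → Mr n m) (u : Fm A (Mr n m)) :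
    Prop := ∀ i, ∀ z ∈ ball (0 : ℂ) A.R, ∀ᶠ w in 𝓝[≠] z, σ' i w * u i w = φ (pt A i w) * σ i w

section th
variable {E : VB C n} {g : Cy A (Mn n)} {σ a : Fm A (Mn n)} {θ : C → Mn n}

theorem th_iff (ok : Ok A) (h : Fr A E g σ) (hz : z ∈ ball (0 : ℂ) A.R) :
    (∃ G, HolExt (fun u => (loc (pt A i z) (E.g (pt A i z)) u)⁻¹ *
      (jac (pt A i z) u • loc (pt A i z) θ u) * loc (pt A i z) (E.g (pt A i z)) u) G
      (ctr (pt A i z))) ↔
    Ho (fun w => (σ i w)⁻¹ * (jc (A.e i) w • θ (pt A i w)) * σ i w) z := by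
  have t := (mem_tgt (i := i)).2 hz
  have b := (ok i).bi t
  rw [ho_iff, ← ho_gam ok h h hz, ← b.ho (F' := fun w => (gam A E i z w)⁻¹ *
    (jac (pt A i z) (tc (A.e i) z w) • θ (pt A i w)) * gam A E i z w)
      ((pn (symm_tc t)).mono fun w e => by simp only [loc, e])]
  refine ⟨fun c => (c.smul b.a1.deriv).congr ?_, fun c => (c.smul (b.a1.deriv.inv b.ne)).congr ?_⟩
  · filter_upwards [pn ((ok i).jc_tc t)] with w e
    simp only [e, Matrix.mul_smul, Matrix.smul_mul, smul_smul, mul_comm]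
  · filter_upwards [pn ((ok i).jc_tc t), pn (b.a1.deriv.continuousAt.eventually_ne b.ne)] with w e f
    simp only [e, Matrix.mul_smul, Matrix.smul_mul, smul_smul, Pi.inv_apply]
    rw [mul_comm (jac _ _), inv_mul_cancel_left₀ f]

theorem Th.ho (h : Fr A E g σ) (ht : Th A σ θ a) (ha : A.Hl a) (hz : z ∈ ball (0 : ℂ) A.R) :
    Ho (fun w => (σ i w)⁻¹ * (jc (A.e i) w • θ (pt A i w)) * σ i w) z := by
  refine (ho_an (ha.an hz i)).congr ?_
  filter_upwards [ht i z hz, h.nd (i := i) hz] with w b c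
  rw [Matrix.mul_assoc, ← b, nonsing_inv_mul_cancel_left _ _ c.isUnit]

theorem Th.hig (ok : Ok A) (h : Fr A E g σ) (ht : Th A σ θ a) (ha : A.Hl a) : Hig A A.d g a where
  cc := h.cc
  hol := ha
  tr i j z hz := by
    refine eq_of_ev (f := fun w => a i w * g i j w)
      (g := fun w => A.d i j w • (g i j w * a j (A.tr i j w)))
      (an_mul (ha.an hz.1 i) (h.cc.an hz)).continuousAt ((an_d hz).smul (an_mul (h.cc.an hz)
        ((ha.an (tr_ball hz) j).comp (an_tr hz)))).continuousAt ?_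
    filter_upwards [ht i z hz.1, (bi_tr hz).tend.eventually (ht j _ (tr_ball hz)), h.tr i j z hz,
      h.nd (i := i) hz.1, ev_O hz] with w e1 e2 e3 e4 e5
    refine lcancel e4 ?_
    rw [← Matrix.mul_assoc, e1, Matrix.mul_smul, ← Matrix.mul_assoc, ← e3, e2, pt_tr e5,
      ok.jc_tr e5, Matrix.mul_assoc, ← e3, ← Matrix.smul_mul, smul_smul, mul_comm]

theorem exists_th [T2Space C] (ok : Ok A) (h : Fr A E g σ) (ha : Hig A A.d g a) :
    ∃ θ, Th A σ θ a := by
  refine ⟨A.gl fun i w => (jc (A.e i) w)⁻¹ • (σ i w * a i w * (σ i w)⁻¹), fun i z hz => ?_⟩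
  filter_upwards [gl_ev (u := fun i w => (jc (A.e i) w)⁻¹ • (σ i w * a i w * (σ i w)⁻¹)) (i := i)
    (fun i j z hz => by
      filter_upwards [h.tr i j z hz, ev_O hz] with w e1 e2
      rw [e1, ok.jc_tr e2, Matrix.mul_inv_rev, mul_inv, mul_smul, Matrix.mul_assoc (σ i w) (g i j w),
        ← inv_smul_smul₀ (d_ne e2) (g i j w * _), ← ha.tr i j w e2]
      simp only [Matrix.mul_smul, Matrix.smul_mul, Matrix.mul_assoc,
        mul_nonsing_inv_cancel_left _ _ (cc_det h.cc e2).isUnit]) hz,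
    h.nd (i := i) hz, ev_ball hz] with w e1 e2 e3
  rw [e1, smul_inv_smul₀ (ok.jc_ne e3), nonsing_inv_mul_cancel_right _ _ e2.isUnit]

theorem Th.trace_iff (ok : Ok A) (h : Fr A E g σ) (ht : Th A σ θ a) (ha : A.Hl a) :
    (∀ x, ∀ᶠ y in 𝓝[≠] x, (θ y).trace = 0) ↔
      ∀ i, ∀ z ∈ ball (0 : ℂ) A.R, (a i z).trace = 0 := by
  have k : ∀ i, ∀ z ∈ ball (0 : ℂ) A.R, ∀ᶠ w in 𝓝[≠] z,
      (a i w).trace = jc (A.e i) w * (θ (pt A i w)).trace := fun i z hz => by
    filter_upwards [ht i z hz, h.nd (i := i) hz] with w e1 e2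
    rw [tr_conj e2 e1, trace_smul, smul_eq_mul]
  refine ⟨fun b i z hz => eq_of_ev (f := fun w => (a i w).trace) (g := fun _ => 0)
    (an_trace (ha.an hz i)).continuousAt continuousAt_const ?_, fun b => ev_ind (A := A) ?_⟩
  · filter_upwards [k i z hz, (ev_A hz).1 (b _)] with w e1 e2
    rw [e1, e2, mul_zero]
  · intro i z hz
    filter_upwards [k i z hz, ev_ball hz] with w e1 e2
    exact (mul_eq_zero.1 (e1.symm.trans (b i w e2))).resolve_left (ok.jc_ne e2)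

end th

variable {D : C →₀ ℤ}

theorem toCoc (ok : Ok A) (E : Higgs C n D) : ∃ g a σ, Ad A E g a σ := by
  obtain ⟨g, σ, h⟩ := toFr ok E.toVB
  have k : ∀ i, ∀ z ∈ ball (0 : ℂ) A.R, _ := fun i z hz => (th_iff (i := i) ok h hz).1 (E.hol _)
  refine ⟨g, fun i => hx fun w => (σ i w)⁻¹ * (jc (A.e i) w • E.θ (pt A i w)) * σ i w, σ, h,
    an_of_hl fun i z hz => (k i z hz).an, fun i z hz => ?_⟩
  filter_upwards [(k i z hz).eq, h.nd (i := i) hz] with w e1 e2
  rw [← e1, Matrix.mul_assoc, mul_nonsing_inv_cancel_left _ _ e2.isUnit]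

section ad
variable {E : Higgs C n D} {g : Cy A (Mn n)} {a σ : Fm A (Mn n)}

theorem Ad.hig (h : Ad A E g a σ) (ok : Ok A) : Hig A A.d g a := Th.hig ok h.fr h.th h.hol

theorem Ad.trace (h : Ad A E g a σ) (ok : Ok A) (hz : z ∈ ball (0 : ℂ) A.R) : (a i z).trace = 0 :=
  (Th.trace_iff ok h.fr h.th h.hol).1 E.tr i z hz

theorem Ad.detI (h : Ad A E g a σ) (ok : Ok A) {l : Cy A ℂ} {s : Fm A ℂ} (hs : Dv A D l s) :
    ∃ u, DetI A g l u := by
  obtain ⟨f, hf⟩ := E.det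
  exact (h.fr.detI ok hs hf).imp fun _ a => a.1

end ad

/-! ### homomorphisms -/

section hom
variable {E : VB C m} {g : Cy A (Mn m)} {σ a : Fm A (Mn m)} {θ : C → Mn m} {E' : VB C n}
  {g' : Cy A (Mn n)} {σ' a' : Fm A (Mn n)} {θ' : C → Mn n} {φ : C → Mr n m} {u : Fm A (Mr n m)}

theorem Rel.eq (r : Rel A σ σ' φ u) (h' : Fr A E' g' σ') (hz : z ∈ ball (0 : ℂ) A.R) :
    u i =ᶠ[𝓝[≠] z] fun w => (σ' i w)⁻¹ * φ (pt A i w) * σ i w := by
  filter_upwards [r i z hz, h'.nd (i := i) hz] with w b c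
  rw [Matrix.mul_assoc, ← b, nonsing_inv_mul_cancel_left _ _ c.isUnit]

theorem Rel.tr (r : Rel A σ σ' φ u) (h : Fr A E g σ) (h' : Fr A E' g' σ') (hu : A.Hl u)
    (hz : z ∈ A.O i j) : u i z * g i j z = g' i j z * u j (A.tr i j z) := by
  refine eq_of_ev (f := fun w => u i w * g i j w) (g := fun w => g' i j w * u j (A.tr i j w))
    (an_mul (hu.an hz.1 i) (h.cc.an hz)).continuousAt (an_mul (h'.cc.an hz)
      ((hu.an (tr_ball hz) j).comp (an_tr hz))).continuousAt ?_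
  filter_upwards [r i z hz.1, (bi_tr hz).tend.eventually (r j _ (tr_ball hz)), h.tr i j z hz,
    h'.tr i j z hz, h'.nd (i := i) hz.1, ev_O hz] with w e1 e2 e3 e4 e5 e6
  refine lcancel e5 ?_
  rw [← Matrix.mul_assoc, e1, ← Matrix.mul_assoc, ← e4, e2, pt_tr e6, e3, Matrix.mul_assoc]

theorem exists_rel [T2Space C] (h : Fr A E g σ) (h' : Fr A E' g' σ')
    (hu : ∀ i j, ∀ z ∈ A.O i j, u i z * g i j z = g' i j z * u j (A.tr i j z)) :
    ∃ φ, Rel A σ σ' φ u := by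
  refine ⟨A.gl fun i w => σ' i w * u i w * (σ i w)⁻¹, fun i z hz => ?_⟩
  filter_upwards [gl_ev (u := fun i w => σ' i w * u i w * (σ i w)⁻¹) (i := i) (fun i j z hz => by
      filter_upwards [h.tr i j z hz, h'.tr i j z hz, ev_O hz] with w e1 e2 e3
      rw [e1, e2, Matrix.mul_inv_rev, Matrix.mul_assoc (σ' i w) (g' i j w), ← hu i j w e3]
      simp only [Matrix.mul_assoc, mul_nonsing_inv_cancel_left _ _ (cc_det h.cc e3).isUnit]) hz,
    h.nd (i := i) hz] with w e1 e2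
  rw [e1, nonsing_inv_mul_cancel_right _ _ e2.isUnit]

theorem Rel.com_iff (ok : Ok A) (r : Rel A σ σ' φ u) (h : Fr A E g σ) (h' : Fr A E' g' σ')
    (t : Th A σ θ a) (t' : Th A σ' θ' a') (hu : A.Hl u) (ha : A.Hl a) (ha' : A.Hl a') :
    (∀ x, ∀ᶠ y in 𝓝[≠] x, φ y * θ y = θ' y * φ y) ↔
      ∀ i, ∀ z ∈ ball (0 : ℂ) A.R, u i z * a i z = a' i z * u i z := by
  have k : ∀ i, ∀ z ∈ ball (0 : ℂ) A.R, ∀ᶠ w in 𝓝[≠] z,
      (φ (pt A i w) * θ (pt A i w) = θ' (pt A i w) * φ (pt A i w) ↔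
        u i w * a i w = a' i w * u i w) := fun i z hz => by
    filter_upwards [r i z hz, t i z hz, t' i z hz, h.nd (i := i) hz, h'.nd (i := i) hz,
      ev_ball hz] with w e1 e2 e3 e4 e5 e6
    have b : σ' i w * (u i w * a i w) = (jc (A.e i) w • (φ (pt A i w) * θ (pt A i w))) * σ i w := by
      rw [← Matrix.mul_assoc, e1, Matrix.mul_assoc, e2, ← Matrix.mul_assoc, Matrix.mul_smul]
    have c : σ' i w * (a' i w * u i w) =
        (jc (A.e i) w • (θ' (pt A i w) * φ (pt A i w))) * σ i w := by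
      rw [← Matrix.mul_assoc, e3, Matrix.mul_assoc, e1, ← Matrix.mul_assoc, Matrix.smul_mul]
    exact ⟨fun e => lcancel e5 (by rw [b, c, e]), fun e =>
      smul_right_injective _ (ok.jc_ne e6) (rcancel e4 (by rw [← b, ← c, e]))⟩
  refine ⟨fun b i z hz => eq_of_ev (f := fun w => u i w * a i w) (g := fun w => a' i w * u i w)
    (an_mul (hu.an hz i) (ha.an hz i)).continuousAt (an_mul (ha'.an hz i) (hu.an hz i)).continuousAt
    ?_, fun b => ev_ind (A := A) fun i z hz => ?_⟩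
  · filter_upwards [k i z hz, (ev_A hz).1 (b _)] with w e1 e2 using e1.1 e2
  · filter_upwards [k i z hz, ev_ball hz] with w e1 e2 using e1.2 (b i w e2)

end hom

theorem iso_iff [T2Space C] (ok : Ok A) {E E' : Higgs C n D} {g g' : Cy A (Mn n)}
    {a σ a' σ' : Fm A (Mn n)} (h : Ad A E g a σ) (h' : Ad A E' g' a' σ') :
    E.Iso E' ↔ ∃ u, Hom A g a g' a' u ∧ ∀ i, ∀ z ∈ ball (0 : ℂ) A.R, (u i z).det ≠ 0 := by
  have k : ∀ (φ : C → Mn n) i, ∀ z ∈ ball (0 : ℂ) A.R, (∃ G, HolExt (fun u =>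
      (loc (pt A i z) (E'.g (pt A i z)) u)⁻¹ * loc (pt A i z) φ u *
        loc (pt A i z) (E.g (pt A i z)) u) G (ctr (pt A i z)) ∧ (G (ctr (pt A i z))).det ≠ 0) ↔
      Un (fun w => (σ' i w)⁻¹ * φ (pt A i w) * σ i w) z := fun φ i z hz => by
    rw [un_iff, ← un_gam ok h.fr h'.fr hz]
    exact ((ok i).un (F := fun y => (E'.g (pt A i z) y)⁻¹ * φ y * E.g (pt A i z) y)
      (mem_tgt.2 hz)).symm
  constructor
  · rintro ⟨φ, b⟩
    have c := fun i z hz => (k φ i z hz).1 (b _).1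
    have hu : A.Hl fun i => hx fun w => (σ' i w)⁻¹ * φ (pt A i w) * σ i w :=
      an_of_hl fun i z hz => (c i z hz).ho.an
    have r : Rel A σ σ' φ fun i => hx fun w => (σ' i w)⁻¹ * φ (pt A i w) * σ i w :=
      fun i z hz => by
        filter_upwards [(c i z hz).ho.eq, h'.fr.nd (i := i) hz] with w e1 e2
        rw [← e1, Matrix.mul_assoc, mul_nonsing_inv_cancel_left _ _ e2.isUnit]
    exact ⟨_, ⟨hu, fun i j z hz => r.tr h.fr h'.fr hu hz,
      (r.com_iff ok h.fr h'.fr h.th h'.th hu h.hol h'.hol).1 fun x => (b x).2⟩,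
      fun i z hz => (c i z hz).det_hx⟩
  · rintro ⟨u, b, c⟩
    obtain ⟨φ, r⟩ := exists_rel h.fr h'.fr b.tr
    exact ⟨φ, pt_ind A fun i z hz => ⟨(k φ i z hz).2
      ((un_an (b.hol.an hz i) (c i z hz)).congr (r.eq h'.fr hz)),
      (r.com_iff ok h.fr h'.fr h.th h'.th b.hol h.hol h'.hol).2 b.com _⟩⟩

/-! ### differentials -/

section cf
variable {k : ℕ} {b b' : C → ℂ}

theorem cf_tr (ok : Ok A) (hz : z ∈ A.O i j) :
    cf A k b i z = A.d i j z ^ k * cf A k b j (A.tr i j z) := by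
  rw [cf, cf, ok.jc_tr hz, pt_tr hz]; ring

theorem cf_sec (ok : Ok A) (k : ℕ) (b : C → ℂ) : A.Sec (fun i j z => A.d i j z ^ k) (cf A k b) :=
  fun _ _ _ hz => cf_tr ok hz

theorem cf_an_iff (ok : Ok A) (hz : z ∈ ball (0 : ℂ) A.R) : AnalyticAt ℂ (cf A k b i) z ↔
    AnalyticAt ℂ (fun u => jac (pt A i z) u ^ k * loc (pt A i z) b u) (ctr (pt A i z)) := by
  have t := (mem_tgt (i := i)).2 hz
  have c := (ok i).bi t
  have e : ∀ᶠ w in 𝓝 z, cf A k b i w = deriv (tc (A.e i) z) w ^ k *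
      (jac (pt A i z) (tc (A.e i) z w) ^ k * loc (pt A i z) b (tc (A.e i) z w)) := by
    filter_upwards [(ok i).jc_tc t, symm_tc t] with w e1 e2
    rw [cf, e1, loc, e2]; ring
  refine ⟨fun d => ?_, fun d => ((c.a1.deriv.pow k).mul (d.comp_of_eq c.a1 c.e1)).congr
    (EventuallyEq.symm e)⟩
  have f := ((c.a1.deriv.pow k).inv (pow_ne_zero k c.ne)).mul d
  refine (f.comp_of_eq c.a2 c.e2).congr ?_
  filter_upwards [c.symm.tend'.eventually e, c.r,
    c.symm.tend'.eventually (c.a1.deriv.continuousAt.eventually_ne c.ne)] with w e1 e2 e3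
  simp only [Function.comp, Pi.mul_apply, Pi.inv_apply, Pi.pow_apply, e1, e2,
    inv_mul_cancel_left₀ (pow_ne_zero k e3)]

theorem mem_H0 (ok : Ok A) : b ∈ H0 C k ↔ A.Hl (cf A k b) :=
  ⟨fun h => an_of_hl fun _ _ hz => (cf_an_iff ok hz).2 (h _),
    fun h => pt_ind A fun i _ hz => (cf_an_iff ok hz).1 (h.an hz i)⟩

theorem cf_inj (ok : Ok A) (h : ∀ i, ∀ z ∈ ball (0 : ℂ) A.R, cf A k b i z = cf A k b' i z) :
    b = b' := funext (pt_ind A fun i z hz =>
  mul_left_cancel₀ (pow_ne_zero k (ok.jc_ne hz)) (h i z hz))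

theorem exists_cf (ok : Ok A) {u : Fm A ℂ} (hu : A.Sec (fun i j z => A.d i j z ^ k) u) :
    ∃ b, ∀ i, ∀ z ∈ ball (0 : ℂ) A.R, cf A k b i z = u i z := by
  have f : A.Fn fun i z => (jc (A.e i) z ^ k)⁻¹ * u i z := fun i j z hz => by
    have := d_ne hz
    have := ok.jc_ne (i := j) (tr_ball hz)
    beta_reduce
    rw [hu i j z hz, ok.jc_tr hz, smul_eq_mul]
    field_simp
    ring
  refine ⟨A.gl fun i z => (jc (A.e i) z ^ k)⁻¹ * u i z, fun i z hz => ?_⟩
  rw [cf, show A.gl _ (pt A i z) = _ from f.pl_gl hz,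
    mul_inv_cancel_left₀ (pow_ne_zero k (ok.jc_ne hz))]

end cf

theorem hit_iff (ok : Ok A) {E : Higgs C n D} {g : Cy A (Mn n)} {a σ : Fm A (Mn n)}
    (h : Ad A E g a σ) (b : Base C n) : E.Hit b ↔ ∀ (k : Fin (n - 1)) i, ∀ z ∈ ball (0 : ℂ) A.R,
      cf A (k + 2) (b k) i z = (a i z).charpoly.coeff (n - (k + 2)) := by
  have le : ∀ k : Fin (n - 1), (k : ℕ) + 2 ≤ n := fun k => by have := k.2; omega
  have e : ∀ i, ∀ z ∈ ball (0 : ℂ) A.R, ∀ᶠ w in 𝓝[≠] z, ∀ k : Fin (n - 1),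
      (a i w).charpoly.coeff (n - (k + 2)) =
        jc (A.e i) w ^ ((k : ℕ) + 2) * (E.θ (pt A i w)).charpoly.coeff (n - (k + 2)) :=
    fun i z hz => by
      filter_upwards [h.th i z hz, h.fr.nd (i := i) hz] with w e1 e2 k
      rw [cp_conj e2 e1, cp_smul (le k)]
  refine ⟨fun c k i z hz => eq_of_ev (g := fun w => (a i w).charpoly.coeff (n - (k + 2)))
    (((mem_H0 ok).1 (b k).2).an hz i).continuousAt (cp_an (le k) (h.hol.an hz i)).continuousAt ?_,
    fun c => ev_ind (A := A) fun i z hz => ?_⟩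
  · filter_upwards [e i z hz, (ev_A hz).1 (c _)] with w e1 e2
    rw [e1, cf, e2]
  · filter_upwards [e i z hz, ev_ball hz] with w e1 e2 k
    exact mul_left_cancel₀ (pow_ne_zero _ (ok.jc_ne e2)) ((c k i w e2).trans (e1 k))

/-- the point of the Hitchin base given by a Higgs field -/
theorem exists_base (ok : Ok A) {g : Cy A (Mn n)} {a : Fm A (Mn n)} (h : Hig A A.d g a) :
    ∃ b : Base C n, ∀ (k : Fin (n - 1)) i, ∀ z ∈ ball (0 : ℂ) A.R,
      cf A (k + 2) (b k) i z = (a i z).charpoly.coeff (n - (k + 2)) := by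
  have le : ∀ k : Fin (n - 1), (k : ℕ) + 2 ≤ n := fun k => by have := k.2; omega
  have c : ∀ k : Fin (n - 1), _ := fun k => exists_cf ok (k := k + 2)
    (u := fun i z => (a i z).charpoly.coeff (n - (k + 2))) fun i j z hz => by
      have := h.tr i j z hz
      rw [← Matrix.mul_smul] at this
      beta_reduce
      rw [← cp_conj (cc_det h.cc hz) this.symm, cp_smul (le k), smul_eq_mul]
  choose b hb using c
  exact ⟨fun k => ⟨b k, (mem_H0 ok).2 fun i => (an_of_hl (fun i z hz =>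
    cp_an (le k) (h.hol.an hz i)) i).congr (hb k i)⟩, hb⟩

theorem base_ext (ok : Ok A) {b b' : Base C n} (h : ∀ (k : Fin (n - 1)) i, ∀ z ∈ ball (0 : ℂ) A.R,
    cf A (k + 2) (b k) i z = cf A (k + 2) (b' k) i z) : b = b' :=
  funext fun k => Subtype.ext (cf_inj ok (h k))

end Vale.Agent.P275AD
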