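import Vale.Agent.P275AD.Defs

/-!
# P275, block AD: germs of matrices on punctured discs, lattices
-/

set_option linter.unusedSectionVars false

open scoped Matrix.Norms.Operator Topology ContDiff
open Filter Set Matrix Metric
open Vale.Agent.P281Z.Hm (an_ent an_of an_mul an_det an_inv)
open Vale.Agent.P275ST (HolExt SmExt)

noncomputable section

namespace Vale.Agent.P275AD

section ext
variable {F : Type} [TopologicalSpace F] [Zero F] [T2Space F] {f g : ℂ → F} {z : ℂ}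

theorem hx_eq (hg : ContinuousAt g z) (h : f =ᶠ[𝓝[≠] z] g) : hx f z = g z :=
  ((hg.tendsto.mono_left nhdsWithin_le_nhds).congr' h.symm).limUnder_eq

theorem ev_punct {p : ℂ → Prop} (h : ∀ᶠ w in 𝓝[≠] z, p w) :
    ∀ᶠ w in 𝓝 z, ∀ᶠ u in 𝓝[≠] w, p u := by
  have a := eventually_nhdsWithin_iff.1 (eventually_nhdsNE_eventually_nhds_iff.2 h)
  filter_upwards [a] with w hw
  by_cases e : w = z
  · exact e ▸ h
  · exact (hw e).filter_mono nhdsWithin_le_nhds

theorem hx_ev (hg : ∀ᶠ w in 𝓝 z, ContinuousAt g w) (h : f =ᶠ[𝓝[≠] z] g) : hx f =ᶠ[𝓝 z] g := by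
  filter_upwards [hg, ev_punct h] with w a b using hx_eq a b

theorem eq_of_ev (hf : ContinuousAt f z) (hg : ContinuousAt g z) (h : f =ᶠ[𝓝[≠] z] g) :
    f z = g z := (hx_eq hf EventuallyEq.rfl).symm.trans (hx_eq hg h)

end ext

theorem an_sub (z c : ℂ) : AnalyticAt ℂ (fun w => w - z) c := analyticAt_id.sub analyticAt_const

theorem ev_ne (z : ℂ) : ∀ᶠ w in 𝓝[≠] z, w ≠ z := self_mem_nhdsWithin

theorem pn {p : ℂ → Prop} {z : ℂ} (h : ∀ᶠ w in 𝓝 z, p w) : ∀ᶠ w in 𝓝[≠] z, p w :=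
  h.filter_mono nhdsWithin_le_nhds

variable {l m n : Type} [Fintype l] [Fintype m] [Fintype n] {z : ℂ}

/-- meromorphic germs -/
def Me (F : ℂ → Matrix m n ℂ) (z : ℂ) : Prop := ∀ a b, MeromorphicAt (fun w => F w a b) z

/-- holomorphic germs -/
def Ho (F : ℂ → Matrix m n ℂ) (z : ℂ) : Prop := ∃ G, AnalyticAt ℂ G z ∧ F =ᶠ[𝓝[≠] z] G

/-- invertible holomorphic germs -/
def Un [DecidableEq n] (F : ℂ → Matrix n n ℂ) (z : ℂ) : Prop :=
  ∃ G, AnalyticAt ℂ G z ∧ F =ᶠ[𝓝[≠] z] G ∧ (G z).det ≠ 0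

/-- germs which are invertible off the centre -/
def Nd [DecidableEq n] (F : ℂ → Matrix n n ℂ) (z : ℂ) : Prop := ∀ᶠ w in 𝓝[≠] z, (F w).det ≠ 0

theorem holExt_iff {m n : ℕ} {F G : ℂ → Matrix (Fin m) (Fin n) ℂ} :
    HolExt F G z ↔ AnalyticAt ℂ G z ∧ F =ᶠ[𝓝[≠] z] G :=
  ⟨fun h => ⟨an_of h.1, h.2⟩, fun h => ⟨an_ent h.1, h.2⟩⟩

theorem ho_iff {m n : ℕ} {F : ℂ → Matrix (Fin m) (Fin n) ℂ} : (∃ G, HolExt F G z) ↔ Ho F z :=
  exists_congr fun _ => holExt_iff

theorem un_iff {n : ℕ} {F : ℂ → Matrix (Fin n) (Fin n) ℂ} :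
    (∃ G, HolExt F G z ∧ (G z).det ≠ 0) ↔ Un F z :=
  exists_congr fun _ => by rw [holExt_iff, and_assoc]

section me
variable {F F' : ℂ → Matrix m n ℂ}

theorem Me.congr (h : Me F z) (e : F =ᶠ[𝓝[≠] z] F') : Me F' z := fun a b =>
  (h a b).congr (e.mono fun _ hw => by simp only [hw])

theorem me_an (h : AnalyticAt ℂ F z) : Me F z := fun a b => (an_ent h a b).meromorphicAt

theorem Ho.congr (h : Ho F z) (e : F =ᶠ[𝓝[≠] z] F') : Ho F' z :=
  h.imp fun _ a => ⟨a.1, e.symm.trans a.2⟩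

theorem ho_an (h : AnalyticAt ℂ F z) : Ho F z := ⟨F, h, EventuallyEq.rfl⟩

theorem Ho.me (h : Ho F z) : Me F z := by
  obtain ⟨G, a, b⟩ := h
  exact (me_an a).congr b.symm

theorem Me.mul {G : ℂ → Matrix l m ℂ} (hG : Me G z) (h : Me F z) : Me (fun w => G w * F w) z :=
  fun a b => by
    simp only [Matrix.mul_apply]
    exact MeromorphicAt.fun_sum fun k _ => (hG a k).mul (h k b)

theorem Me.smul {c : ℂ → ℂ} (hc : MeromorphicAt c z) (h : Me F z) : Me (fun w => c w • F w) z :=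
  fun a b => hc.mul (h a b)

theorem Me.sub {l' : Type} [Fintype l'] (h : Me F z) (I : l → m) (J : l' → n) :
    Me (fun w => (F w).submatrix I J) z := fun a b => h (I a) (J b)

theorem Ho.mul {G : ℂ → Matrix l m ℂ} (hG : Ho G z) (h : Ho F z) : Ho (fun w => G w * F w) z := by
  obtain ⟨G', a, b⟩ := hG
  obtain ⟨F', c, d⟩ := h
  exact ⟨_, an_mul a c, (b.and d).mono fun w e => by simp only [e.1, e.2]⟩

theorem Ho.smul {c : ℂ → ℂ} (hc : AnalyticAt ℂ c z) (h : Ho F z) : Ho (fun w => c w • F w) z := by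
  obtain ⟨F', a, b⟩ := h
  exact ⟨_, hc.smul a, b.mono fun w e => by simp only [e, Pi.smul_apply']⟩

theorem Me.ev_an (h : Me F z) : ∀ᶠ w in 𝓝[≠] z, AnalyticAt ℂ F w :=
  (eventually_all.2 fun a => eventually_all.2 fun b => (h a b).eventually_analyticAt).mono
    fun _ => an_of

theorem Me.ev (h : Me F z) : ∀ᶠ w in 𝓝 z, Me F w := by
  filter_upwards [eventually_nhdsWithin_iff.1 h.ev_an] with w hw
  by_cases e : w = z
  · exact e ▸ h
  · exact me_an (hw e)

theorem Me.comp {φ : ℂ → ℂ} (h : Me F (φ z)) (hφ : AnalyticAt ℂ φ z) :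
    Me (fun w => F (φ w)) z := fun a b => (h a b).comp_analyticAt hφ

theorem Ho.comp {φ : ℂ → ℂ} (h : Ho F (φ z)) (hφ : AnalyticAt ℂ φ z) (h0 : deriv φ z ≠ 0) :
    Ho (fun w => F (φ w)) z := by
  obtain ⟨G, a, b⟩ := h
  exact ⟨_, a.comp hφ, (hφ.differentiableAt.hasDerivAt.tendsto_nhdsNE h0).eventually b⟩

theorem Ho.hx_ev (h : Ho F z) : ∃ G, AnalyticAt ℂ G z ∧ F =ᶠ[𝓝[≠] z] G ∧ hx F =ᶠ[𝓝 z] G := by
  obtain ⟨G, a, b⟩ := h
  exact ⟨G, a, b, P275AD.hx_ev (a.eventually_analyticAt.mono fun _ c => c.continuousAt) b⟩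

theorem Ho.an (h : Ho F z) : AnalyticAt ℂ (hx F) z := by
  obtain ⟨G, a, -, c⟩ := h.hx_ev
  exact a.congr c.symm

theorem Ho.eq (h : Ho F z) : F =ᶠ[𝓝[≠] z] hx F := by
  obtain ⟨G, -, b, c⟩ := h.hx_ev
  exact b.trans (pn c.symm)

theorem ho_of (h : ∀ a b, ∃ g : ℂ → ℂ, AnalyticAt ℂ g z ∧ (fun w => F w a b) =ᶠ[𝓝[≠] z] g) :
    Ho F z := by
  choose g hg using h
  refine ⟨fun w => Matrix.of fun a b => g a b w, an_of fun a b => (hg a b).1, ?_⟩
  filter_upwards [eventually_all.2 fun a => eventually_all.2 fun b => (hg a b).2] with w hw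
  exact Matrix.ext hw

theorem Me.pow (h : Me F z) : ∃ N : ℕ, Ho (fun w => (w - z) ^ N • F w) z := by
  choose k hk using h
  refine ⟨∑ a, ∑ b, k a b, ho_an (an_of fun a b => ?_)⟩
  obtain ⟨c, hc⟩ := Nat.exists_eq_add_of_le ((Finset.single_le_sum (f := k a)
    (fun _ _ => Nat.zero_le _) (Finset.mem_univ b)).trans (Finset.single_le_sum
      (f := fun a => ∑ b, k a b) (fun _ _ => Nat.zero_le _) (Finset.mem_univ a)))
  refine (((an_sub z z).pow c).mul (hk a b)).congr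
    (Eventually.of_forall fun w => ?_)
  simp only [hc, Matrix.smul_apply, smul_eq_mul, Pi.mul_apply, Pi.pow_apply]
  ring

end me

section sq
variable [DecidableEq n] {F F' G : ℂ → Matrix n n ℂ}

theorem Me.det (h : Me F z) : MeromorphicAt (fun w => (F w).det) z := by
  simp only [det_apply']
  exact MeromorphicAt.fun_sum fun σ _ => (MeromorphicAt.const _ _).mul
    (MeromorphicAt.fun_prod fun i _ => h _ _)

theorem Me.inv (h : Me F z) : Me (fun w => (F w)⁻¹) z := fun a b => by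
  simp only [Matrix.inv_def, Ring.inverse_eq_inv', Matrix.smul_apply, smul_eq_mul, adjugate_apply]
  refine h.det.inv.mul (Me.det fun c d => ?_)
  simp only [updateRow_apply]
  split_ifs
  · exact MeromorphicAt.const _ _
  · exact h c d

theorem Un.congr (h : Un F z) (e : F =ᶠ[𝓝[≠] z] F') : Un F' z :=
  h.imp fun _ a => ⟨a.1, e.symm.trans a.2.1, a.2.2⟩

theorem un_an (h : AnalyticAt ℂ F z) (h0 : (F z).det ≠ 0) : Un F z := ⟨F, h, EventuallyEq.rfl, h0⟩

theorem un_one : Un (fun _ => (1 : Matrix n n ℂ)) z := un_an analyticAt_const (by simp)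

theorem Un.ho (h : Un F z) : Ho F z := h.imp fun _ a => ⟨a.1, a.2.1⟩

theorem Un.me (h : Un F z) : Me F z := h.ho.me

theorem ev_det (h : AnalyticAt ℂ F z) (h0 : (F z).det ≠ 0) : ∀ᶠ w in 𝓝 z, (F w).det ≠ 0 :=
  (an_det h).continuousAt.eventually_ne h0

theorem Un.nd (h : Un F z) : Nd F z := by
  obtain ⟨G, a, b, c⟩ := h
  filter_upwards [b, pn (ev_det a c)] with w e1 e2 using e1 ▸ e2

theorem Un.mul (h : Un F z) (hG : Un G z) : Un (fun w => F w * G w) z := by
  obtain ⟨F', a, b, c⟩ := h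
  obtain ⟨G', d, e, f⟩ := hG
  exact ⟨_, an_mul a d, (b.and e).mono fun w e => by simp only [e.1, e.2],
    by rw [det_mul]; exact mul_ne_zero c f⟩

theorem det_inv_ne {M : Matrix n n ℂ} (h : M.det ≠ 0) : M⁻¹.det ≠ 0 := by
  rw [det_nonsing_inv, Ring.inverse_eq_inv']; exact inv_ne_zero h

theorem Un.inv (h : Un F z) : Un (fun w => (F w)⁻¹) z := by
  obtain ⟨F', a, b, c⟩ := h
  exact ⟨_, an_inv a c, b.mono fun w e => by simp only [e], det_inv_ne c⟩

theorem Un.comp {φ : ℂ → ℂ} (h : Un F (φ z)) (hφ : AnalyticAt ℂ φ z) (h0 : deriv φ z ≠ 0) :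
    Un (fun w => F (φ w)) z := by
  obtain ⟨G, a, b, c⟩ := h
  exact ⟨_, a.comp hφ, (hφ.differentiableAt.hasDerivAt.tendsto_nhdsNE h0).eventually b, c⟩

theorem Un.det_hx (h : Un F z) : (hx F z).det ≠ 0 := by
  obtain ⟨G, a, b, c⟩ := h
  have : hx F z = G z := hx_eq a.continuousAt b
  rwa [this]

theorem Un.of_an (h : Un F z) (a : AnalyticAt ℂ F z) : (F z).det ≠ 0 := by
  have : hx F z = F z := hx_eq a.continuousAt EventuallyEq.rfl
  rw [← this]; exact h.det_hx

theorem Nd.congr (h : Nd F z) (e : F =ᶠ[𝓝[≠] z] F') : Nd F' z :=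
  (Eventually.and h e).mono fun _ a => a.2 ▸ a.1

theorem Nd.mul (h : Nd F z) (hG : Nd G z) : Nd (fun w => F w * G w) z :=
  (Eventually.and h hG).mono fun _ a => by rw [det_mul]; exact mul_ne_zero a.1 a.2

theorem Nd.inv (h : Nd F z) : Nd (fun w => (F w)⁻¹) z := Eventually.mono h fun _ => det_inv_ne

theorem Nd.comp {φ : ℂ → ℂ} (h : Nd F (φ z)) (hφ : AnalyticAt ℂ φ z) (h0 : deriv φ z ≠ 0) :
    Nd (fun w => F (φ w)) z := (hφ.differentiableAt.hasDerivAt.tendsto_nhdsNE h0).eventually h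

theorem Me.ev_un (h : Me F z) (h' : Nd F z) : ∀ᶠ w in 𝓝[≠] z, Un F w :=
  (h.ev_an.and h').mono fun _ a => un_an a.1 a.2

theorem Un.ord (h : Un F z) : meromorphicOrderAt (fun w => (F w).det) z = 0 := by
  obtain ⟨G, a, b, c⟩ := h
  refine (meromorphicOrderAt_eq_int_iff (n := 0) (Un.me ⟨G, a, b, c⟩).det).2
    ⟨_, an_det a, c, b.mono fun w e => by simp [e]⟩

theorem un_of_ord (h : Ho F z) (o : meromorphicOrderAt (fun w => (F w).det) z = 0) : Un F z := by
  obtain ⟨g, a, b, c⟩ := (meromorphicOrderAt_eq_int_iff (n := 0) h.me.det).1 o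
  obtain ⟨G, d, e⟩ := h
  refine ⟨G, d, e, ?_⟩
  rwa [eq_of_ev (f := fun w => (G w).det) (an_det d).continuousAt a.continuousAt
    ((c.and e).mono fun w x => by simpa [x.2] using x.1)]

/-- a global matrix which generates the lattice of `F` at `z` -/
def Gen (F : ℂ → Matrix n n ℂ) (z : ℂ) : Prop :=
  ∃ τ : ℂ → Matrix n n ℂ, (∀ w ≠ z, Un τ w) ∧ Un (fun w => (F w)⁻¹ * τ w) z

theorem Gen.of_mul {T : ℂ → Matrix n n ℂ} (hT : ∀ w ≠ z, Un T w)
    (h : Gen (fun w => T w * F w) z) : Gen F z := by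
  obtain ⟨τ, a, b⟩ := h
  refine ⟨fun w => (T w)⁻¹ * τ w, fun w hw => (hT w hw).inv.mul (a w hw), ?_⟩
  simpa only [Matrix.mul_inv_rev, Matrix.mul_assoc] using b

theorem gen_ho (k : ℕ) : ∀ F : ℂ → Matrix n n ℂ, Ho F z →
    meromorphicOrderAt (fun w => (F w).det) z = (k : ℤ) → Gen F z := by
  induction k with
  | zero =>
    intro F h o
    exact ⟨fun _ => 1, fun _ _ => un_one, (un_of_ord h o).inv.mul un_one⟩
  | succ k ih =>
    intro F h o
    obtain ⟨g, g1, g2, g3⟩ := (meromorphicOrderAt_eq_int_iff h.me.det).1 o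
    obtain ⟨G, a, b⟩ := h
    have e0 : (G z).det = 0 := by
      have := eq_of_ev (f := fun w => (G w).det) (g := fun w => (w - z) ^ (k + 1) * g w)
        (an_det a).continuousAt (((analyticAt_id.sub analyticAt_const).pow _).mul g1).continuousAt
        ((g3.and b).mono fun w x => by
          beta_reduce; rw [← x.2, x.1, zpow_natCast, smul_eq_mul])
      simpa using this
    obtain ⟨v, v0, hv⟩ := exists_vecMul_eq_zero_iff.2 e0
    obtain ⟨i, hi⟩ := Function.ne_iff.1 v0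
    let T : ℂ → Matrix n n ℂ := fun w => updateRow 1 i ((w - z)⁻¹ • v)
    have dT : ∀ w, (T w).det = (w - z)⁻¹ * v i := fun w => by
      rw [det_updateRow_smul, ← cramer_transpose_apply, transpose_one, cramer_one]
      rfl
    have hT : ∀ w ≠ z, Un T w := fun w hw => un_an (an_of fun c d => by
        simp only [T, updateRow_apply]
        split_ifs
        · exact ((analyticAt_id.sub analyticAt_const).inv (sub_ne_zero.2 hw)).mul analyticAt_const
        · exact analyticAt_const)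
      (by rw [dT]; exact mul_ne_zero (inv_ne_zero (sub_ne_zero.2 hw)) hi)
    have h1 : Ho (fun w => T w * F w) z := by
      refine Ho.congr (F := fun w => T w * G w) (ho_of fun c d => ?_)
        (b.mono fun w e => by simp only [e])
      by_cases hc : c = i
      · have a1 : AnalyticAt ℂ (fun w => (v ᵥ* G w) d) z := by
          simp only [vecMul, dotProduct]
          exact Finset.analyticAt_fun_sum _ fun k _ => analyticAt_const.mul (an_ent a k d)
        obtain ⟨p, hp⟩ := a1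
        refine ⟨_, ⟨_, hp.has_fpower_series_dslope_fslope⟩, (ev_ne z).mono fun w hw => ?_⟩
        simp only [dslope_of_ne _ hw, slope_def_module, hc, T, Matrix.mul_apply, updateRow_self,
          Pi.smul_apply, smul_eq_mul, vecMul, dotProduct, mul_assoc]
        have := congrFun hv d
        simp only [vecMul, dotProduct, Pi.zero_apply] at this
        simp [this, Finset.mul_sum]
      · refine ⟨_, an_ent a c d, Eventually.of_forall fun w => ?_⟩
        simp [T, Matrix.mul_apply, updateRow_ne hc, one_apply]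
    refine Gen.of_mul hT (ih _ h1 ((meromorphicOrderAt_eq_int_iff h1.me.det).2
      ⟨fun w => v i * g w, analyticAt_const.mul g1, mul_ne_zero hi g2, ?_⟩))
    filter_upwards [g3, ev_ne z] with w e hw
    have := sub_ne_zero.2 hw
    rw [det_mul, dT, e, zpow_natCast, zpow_natCast, smul_eq_mul, smul_eq_mul, pow_succ]
    field_simp

theorem gen_me (h : Me F z) (h' : Nd F z) : Gen F z := by
  obtain ⟨N, hN⟩ := h.pow
  have e : ∀ w, (w - z) ^ N • F w = ((w - z) ^ N • (1 : Matrix n n ℂ)) * F w := fun w => by simp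
  have d : ∀ w ≠ z, ((w - z) ^ N • (1 : Matrix n n ℂ)).det ≠ 0 := fun w hw => by
    rw [det_smul, det_one, mul_one]; exact pow_ne_zero _ (pow_ne_zero _ (sub_ne_zero.2 hw))
  simp only [e] at hN
  refine Gen.of_mul (T := fun w => (w - z) ^ N • (1 : Matrix n n ℂ)) (fun w hw => un_an
    (((analyticAt_id.sub analyticAt_const).pow N).smul analyticAt_const) (d w hw)) ?_
  have o := (meromorphicOrderAt_ne_top_iff_eventually_ne_zero hN.me.det).2
    (Nd.mul ((ev_ne z).mono d) h')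
  obtain ⟨k, hk⟩ := WithTop.ne_top_iff_exists.1 o
  have k0 : 0 ≤ k := by
    have hm := hN.me.det
    obtain ⟨G, a, b⟩ := hN
    have := hm.meromorphicOrderAt_nonneg_iff.2
      ⟨_, an_det a, b.mono fun w x => congrArg Matrix.det x⟩
    rw [← hk] at this
    exact_mod_cast this
  lift k to ℕ using k0
  exact gen_ho k _ hN hk.symm

/-- a global matrix with given lattices at finitely many points -/
theorem exists_lat {Z : Set ℂ} (hZ : Z.Finite) (g : ℂ → ℂ → Matrix n n ℂ)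
    (hg : ∀ z ∈ Z, Me (g z) z ∧ Nd (g z) z) : ∃ σ : ℂ → Matrix n n ℂ,
      (∀ z ∉ Z, Un σ z) ∧ ∀ z ∈ Z, Un (fun w => (g z w)⁻¹ * σ w) z := by
  induction Z, hZ using Set.Finite.induction_on with
  | empty => exact ⟨fun _ => 1, fun _ _ => un_one, fun _ h => h.elim⟩
  | @insert c Z hc _ ih =>
    obtain ⟨σ, a, b⟩ := ih fun z hz => hg z (mem_insert_of_mem _ hz)
    obtain ⟨g1, g2⟩ := hg c (mem_insert _ _)
    obtain ⟨τ, t1, t2⟩ := gen_me ((a c hc).inv.me.mul g1) ((a c hc).inv.nd.mul g2)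
    refine ⟨fun w => σ w * τ w, fun z hz => (a z fun h => hz (mem_insert_of_mem _ h)).mul
      (t1 z fun h => hz (h ▸ mem_insert _ _)), fun z hz => ?_⟩
    rcases hz with rfl | hz
    · refine t2.congr (Eventually.mono (a z hc).nd fun w e => ?_)
      simp only [Matrix.mul_inv_rev, nonsing_inv_nonsing_inv _ e.isUnit, Matrix.mul_assoc]
    · simpa only [Matrix.mul_assoc] using (b z hz).mul (t1 z fun h => hc (h ▸ hz))

end sq

end Vale.Agent.P275AD
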