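import Vale.Agent.P275AD.Higgs
import Vale.Agent.P275HK.Cal

/-!
# P275, block AD: metrics and projectively flat frames
-/

set_option linter.unusedSectionVars false

open scoped Matrix.Norms.Operator Topology ContDiff Manifold ComplexOrder ComplexConjugate
open Filter Set Matrix Metric
open Vale.Agent.P281Z.Hm (an_ent an_of an_mul an_det an_inv wd wb wd_ent wb_ent wd_mul wb_mul wd_ct
  wd_congr wb_congr df_mul df_ct df_ent df_inv)
open Vale.Agent.P275ST (ctr loc jac SmExt VB Higgs)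
open Vale.Agent.P275GC Vale.Agent.P275GC.At Vale.Agent.P275NA
open Vale.Agent.P275HK (cd_mul cd_ct cd_ent cd_inv cd_det cd_dz cd_db cd_ad hol_cd hol_df dz_comp
  db_comp db_hol pd_ne)

noncomputable section

namespace Vale.Agent.P275AD

section germ
variable {m n : Type} [Fintype m] [Fintype n] {z u : ℂ} {P : Matrix m n ℂ → Prop}
  {F F' : ℂ → Matrix m n ℂ} {φ ψ : ℂ → ℂ}

theorem cd_of {N : WithTop ℕ∞} (h : ∀ a b, ContDiffAt ℝ N (fun w => F w a b) z) :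
    ContDiffAt ℝ N F z := by
  classical
  have e : F = fun x => ∑ a, ∑ b, F x a b • Matrix.single a b (1 : ℂ) := by
    funext x
    conv_lhs => rw [matrix_eq_sum_single (F x)]
    simp only [smul_single, smul_eq_mul, mul_one]
  rw [e]
  exact ContDiffAt.sum fun a _ => ContDiffAt.sum fun b _ => (h a b).smul contDiffAt_const

theorem sm_ev {V : Type} [NormedAddCommGroup V] [NormedSpace ℝ V] {G : ℂ → V}
    (h : ContDiffAt ℝ ∞ G z) : ∀ᶠ w in 𝓝 z, ContDiffAt ℝ 1 G w :=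
  (h.of_le (m := 1) (by simp)).eventually (by simp)

/-- smooth germs whose value has the property `P` -/
def Sx (P : Matrix m n ℂ → Prop) (F : ℂ → Matrix m n ℂ) (z : ℂ) : Prop :=
  ∃ G, ContDiffAt ℝ ∞ G z ∧ F =ᶠ[𝓝[≠] z] G ∧ P (G z)

theorem sx_iff {m n : ℕ} {P : Mr m n → Prop} {F : ℂ → Mr m n} :
    (∃ G, SmExt F G z ∧ P (G z)) ↔ Sx P F z :=
  exists_congr fun _ => ⟨fun h => ⟨cd_of h.1.1, h.1.2, h.2⟩, fun h => ⟨⟨cd_ent h.1, h.2.1⟩, h.2.2⟩⟩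

theorem Sx.congr (h : Sx P F z) (e : F =ᶠ[𝓝[≠] z] F') : Sx P F' z :=
  h.imp fun _ a => ⟨a.1, e.symm.trans a.2.1, a.2.2⟩

theorem Sx.hx (h : Sx P F z) :
    ContDiffAt ℝ ∞ (hx F) z ∧ F =ᶠ[𝓝[≠] z] hx F ∧ P (hx F z) := by
  obtain ⟨G, a, b, c⟩ := h
  have d := hx_ev ((sm_ev a).mono fun _ e => e.continuousAt) b
  exact ⟨a.congr_of_eventuallyEq d, b.trans (pn d.symm), d.self_of_nhds ▸ c⟩

theorem Bi.sx' (h : Bi φ ψ z u) (a : Sx P F u) : Sx P (fun w => F (φ w)) z := by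
  obtain ⟨G, a, b, c⟩ := a
  exact ⟨fun w => G (φ w), (h.e1 ▸ a).comp z (hol_cd h.a1), h.tend.eventually b,
    by simpa only [h.e1] using c⟩

theorem Bi.sx (h : Bi φ ψ z u) (e : ∀ᶠ w in 𝓝[≠] z, F' w = F (φ w)) : Sx P F' z ↔ Sx P F u :=
  ⟨fun a => (h.symm.sx' a).congr (EventuallyEq.symm (h.back e)),
    fun a => (h.sx' a).congr (EventuallyEq.symm e)⟩

theorem Bi.near (h : Bi φ ψ z u) : ∀ᶠ w in 𝓝 z, Bi φ ψ w (φ w) := by
  filter_upwards [h.a1.eventually_analyticAt, h.tend'.eventually h.a2.eventually_analyticAt, h.l,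
    h.l.eventually_nhds, h.tend'.eventually h.r.eventually_nhds] with w a b c d e
  exact ⟨a, b, rfl, c, d, e⟩

theorem Bi.df (h : Bi φ ψ z u) (e : ∀ᶠ w in 𝓝 z, F (φ w) = F' w) (a : DifferentiableAt ℝ F' z) :
    DifferentiableAt ℝ F u := by
  refine ((h.e2 ▸ a).comp u (hol_df h.a2)).congr_of_eventuallyEq ?_
  filter_upwards [h.symm.tend'.eventually e, h.r] with w b c
  rw [Function.comp, ← b, c]

theorem ev_nn {p : ℂ → Prop} (h : ∀ᶠ w in 𝓝[≠] z, p w) : ∀ᶠ w in 𝓝[≠] z, ∀ᶠ v in 𝓝 w, p v :=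
  eventually_nhdsNE_eventually_nhds_iff.2 h

theorem ev_pair {l : Filter ℂ} {X Y G : ℂ → Matrix m n ℂ} :
    (∃ α β : ℂ → ℂ, ∀ᶠ u in l, X u = α u • G u ∧ Y u = β u • G u) ↔
      ∀ᶠ u in l, (∃ α : ℂ, X u = α • G u) ∧ ∃ β : ℂ, Y u = β • G u := by
  refine ⟨fun ⟨_, _, h⟩ => h.mono fun _ a => ⟨⟨_, a.1⟩, _, a.2⟩, fun h => ?_⟩
  exact ⟨fun u => Classical.epsilon fun α => X u = α • G u,
    fun u => Classical.epsilon fun α => Y u = α • G u,
    h.mono fun _ a => ⟨Classical.epsilon_spec a.1, Classical.epsilon_spec a.2⟩⟩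

theorem st_dz {m n : ℕ} {F : ℂ → Mr m n} (h : DifferentiableAt ℝ F z) :
    P275ST.dz F z = dz F z := by
  ext a b
  rw [dz, wd_ent h, wd, P275ST.dz, of_apply]
  simp only [smul_eq_mul, mul_one]
  ring

theorem st_db {m n : ℕ} {F : ℂ → Mr m n} (h : DifferentiableAt ℝ F z) :
    P275ST.dzb F z = db F z := by
  ext a b
  rw [db, wb_ent h, wb, P275ST.dzb, of_apply]
  simp only [smul_eq_mul, mul_one]
  ring

end germ

section sq
variable {n : ℕ} {z : ℂ} {K U F : ℂ → Mn n}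

theorem Sx.pd (h : Sx PosDef K z) (hU : Un U z) :
    Sx PosDef (fun w => (U w)ᴴ * K w * U w) z := by
  obtain ⟨G, a, b, c⟩ := h
  obtain ⟨V, d, e, f⟩ := hU
  exact ⟨_, cd_mul (cd_mul (cd_ct (hol_cd d)) a) (hol_cd d),
    (b.and e).mono fun w x => by simp only [x.1, x.2], c.conjTranspose_mul_mul_same
      (mulVec_injective_iff_isUnit.2 ((isUnit_iff_isUnit_det _).2 f.isUnit))⟩

theorem Sx.lmul (h : Sx (fun M => M.det ≠ 0) F z) (hU : Un U z) :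
    Sx (fun M => M.det ≠ 0) (fun w => U w * F w) z := by
  obtain ⟨G, a, b, c⟩ := h
  obtain ⟨V, d, e, f⟩ := hU
  exact ⟨_, cd_mul (hol_cd d) a, (b.and e).mono fun w x => by simp only [x.1, x.2],
    (Matrix.det_mul _ _).trans_ne (mul_ne_zero f c)⟩

/-- `Φ` is parallel up to a scalar form for `D_k + θ + θ^*`, `θ = a dz` -/
def Pf (k a Φ : ℂ → Mn n) (w : ℂ) : Prop :=
  (∃ α : ℂ, dz Φ w + (cn k w + a w) * Φ w = α • Φ w) ∧
    ∃ β : ℂ, db Φ w + ad (k w) (k w) (a w) * Φ w = β • Φ w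

theorem scal_ext {X Φ : ℂ → Mn n} (hX : ContinuousAt X z) (hΦ : ContDiffAt ℝ ∞ Φ z)
    (h0 : (Φ z).det ≠ 0) (h : ∀ᶠ w in 𝓝[≠] z, ∃ α : ℂ, X w = α • Φ w) :
    ∃ α : ℂ, X z = α • Φ z := by
  have a : X z * (Φ z)⁻¹ ∈ (ℂ ∙ (1 : Mn n)) := by
    refine (Submodule.closed_of_finiteDimensional _).mem_of_tendsto (b := 𝓝[≠] z)
      ((hX.mul (cd_inv hΦ h0).continuousAt).tendsto.mono_left nhdsWithin_le_nhds) ?_
    filter_upwards [h, pn ((cd_det hΦ).continuousAt.eventually_ne h0)] with w ⟨α, e⟩ f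
    exact Submodule.mem_span_singleton.2
      ⟨α, by rw [Pi.mul_apply, e, Matrix.smul_mul, mul_nonsing_inv _ f.isUnit]⟩
  obtain ⟨α, e⟩ := Submodule.mem_span_singleton.1 a
  exact ⟨α, by rw [← nonsing_inv_mul_cancel_right (Φ z) (X z) h0.isUnit, ← e, Matrix.smul_mul,
    Matrix.one_mul]⟩

theorem pf_ext {k a Φ : ℂ → Mn n} (hk : ContDiffAt ℝ ∞ k z) (k0 : (k z).det ≠ 0)
    (ha : AnalyticAt ℂ a z) (hΦ : ContDiffAt ℝ ∞ Φ z) (h0 : (Φ z).det ≠ 0)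
    (h : ∀ᶠ w in 𝓝[≠] z, Pf k a Φ w) : ∀ᶠ w in 𝓝 z, Pf k a Φ w := by
  have c : ∀ {G : ℂ → Mn n}, ContDiffAt ℝ ∞ G z → ContDiffAt ℝ (0 + 1) G z := fun a =>
    a.of_le (by simp)
  have e : Pf k a Φ z := ⟨scal_ext ((cd_dz (c hΦ)).continuousAt.add ((((cd_inv hk k0).continuousAt.mul
    (cd_dz (c hk)).continuousAt).add ha.continuousAt).mul hΦ.continuousAt)) hΦ h0
      (h.mono fun _ a => a.1), scal_ext ((cd_db (c hΦ)).continuousAt.add
        ((cd_ad hk k0 hk (hol_cd ha)).continuousAt.mul hΦ.continuousAt)) hΦ h0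
          (h.mono fun _ a => a.2)⟩
  filter_upwards [eventually_nhdsWithin_iff.1 h] with w hw
  by_cases d : w = z
  · exact d ▸ e
  · exact hw d

theorem flat_pt {φ ψ : ℂ → ℂ} {F H σ Φ k : ℂ → Mn n} {T a : Mn n} (b : Bi φ ψ z (φ z))
    (s1 : AnalyticAt ℂ σ z) (s2 : (σ z).det ≠ 0) (hΦ : DifferentiableAt ℝ Φ z)
    (hk : DifferentiableAt ℝ k z) (k0 : (k z).det ≠ 0) (e1 : ∀ᶠ w in 𝓝 z, F (φ w) = σ w * Φ w)
    (e2 : ∀ᶠ w in 𝓝 z, k w = (σ w)ᴴ * H (φ w) * σ w) (e3 : σ z * a = (deriv φ z • T) * σ z) :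
    deriv φ z • (P275ST.dz F (φ z) + ((H (φ z))⁻¹ * P275ST.dz H (φ z) + T) * F (φ z)) =
      σ z * (dz Φ z + (cn k z + a) * Φ z) ∧
    conj (deriv φ z) • (P275ST.dzb F (φ z) + (H (φ z))⁻¹ * Tᴴ * H (φ z) * F (φ z)) =
      σ z * (db Φ z + ad (k z) (k z) a * Φ z) := by
  have ds := hol_df s1
  have c2 : (σ z)ᴴ.det ≠ 0 := by rw [det_conjTranspose]; exact star_ne_zero.2 s2
  have dF := b.df e1 (df_mul ds hΦ)
  have dH : DifferentiableAt ℝ H (φ z) := by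
    refine b.df (F' := fun w => ((σ w)⁻¹)ᴴ * k w * (σ w)⁻¹) ?_
      (df_mul (df_mul (df_ct (df_inv ds s2)) hk) (df_inv ds s2))
    filter_upwards [e2, ev_det s1 s2] with w x y
    rw [x, ← Matrix.mul_assoc, mul_nonsing_inv_cancel_right _ _ y.isUnit, ← Matrix.mul_assoc,
      ← conjTranspose_mul, mul_nonsing_inv _ y.isUnit, conjTranspose_one, Matrix.one_mul]
  have dH' : DifferentiableAt ℝ (fun w => H (φ w)) z := dH.comp z (hol_df b.a1)
  have f0 := e1.self_of_nhds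
  have g0 := e2.self_of_nhds
  have h0 : (H (φ z)).det ≠ 0 := by
    rw [g0, Matrix.det_mul, Matrix.det_mul] at k0
    exact right_ne_zero_of_mul (left_ne_zero_of_mul k0)
  have f1 : deriv φ z • dz F (φ z) = dz σ z * Φ z + σ z * dz Φ z := by
    rw [← dz_comp dF b.a1.differentiableAt, dz, wd_congr e1, wd_mul ds hΦ]
  have f2 : conj (deriv φ z) • db F (φ z) = σ z * db Φ z := by
    rw [← db_comp dF b.a1.differentiableAt, db, wb_congr e1, wb_mul ds hΦ, ← db, db_hol s1,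
      Matrix.zero_mul, zero_add]
  have f3 : dz k z = (σ z)ᴴ * (deriv φ z • dz H (φ z)) * σ z + (σ z)ᴴ * H (φ z) * dz σ z := by
    rw [dz, wd_congr e2, wd_mul (df_mul (df_ct ds) dH') ds, wd_mul (df_ct ds) dH', wd_ct ds, ← db,
      db_hol s1, conjTranspose_zero, Matrix.zero_mul, zero_add, ← dz_comp dH b.a1.differentiableAt]
  have f4 : aᴴ = (σ z)ᴴ * (conj (deriv φ z) • Tᴴ) * ((σ z)ᴴ)⁻¹ := by
    rw [← mul_nonsing_inv_cancel_right (σ z)ᴴ aᴴ c2.isUnit, ← conjTranspose_mul, e3,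
      conjTranspose_mul, conjTranspose_smul]
    rfl
  rw [st_dz dF, st_dz dH, st_db dF, smul_add, smul_add, f1, f2, cn, ad, f3, f4, g0, f0]
  refine ⟨?_, ?_⟩
  · rw [Matrix.mul_add, Matrix.add_mul (_ * _) a, Matrix.mul_add (σ z), ← Matrix.mul_assoc _ a, e3]
    simp only [Matrix.mul_inv_rev, Matrix.mul_add, Matrix.add_mul, Matrix.mul_assoc, smul_add,
      Matrix.mul_smul, Matrix.smul_mul, mul_nonsing_inv_cancel_left _ _ s2.isUnit,
      nonsing_inv_mul_cancel_left _ _ c2.isUnit, nonsing_inv_mul_cancel_left _ _ h0.isUnit]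
    abel
  · simp only [Matrix.mul_inv_rev, Matrix.mul_add, Matrix.mul_assoc,
      Matrix.mul_smul, Matrix.smul_mul, mul_nonsing_inv_cancel_left _ _ s2.isUnit,
      nonsing_inv_mul_cancel_left _ _ c2.isUnit]

theorem scal_iff {c : ℂ} {S X Y Φ : Mn n} (hc : c ≠ 0) (hS : S.det ≠ 0) (e : c • X = S * Y) :
    (∃ α : ℂ, X = α • (S * Φ)) ↔ ∃ α : ℂ, Y = α • Φ :=
  ⟨fun ⟨α, a⟩ => ⟨c * α, lcancel hS (by rw [← e, a, smul_smul, Matrix.mul_smul])⟩,
    fun ⟨α, a⟩ => ⟨c⁻¹ * α, by rw [mul_smul, ← Matrix.mul_smul, ← a, ← e, inv_smul_smul₀ hc]⟩⟩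

end sq

variable {C : Type} [TopologicalSpace C] [ChartedSpace ℂ C] [IsManifold 𝓘(ℂ) ω C] {A : At C}
  {i j : Fin A.N} {z : ℂ} {n : ℕ} {g : Cy A (Mn n)} {σ a k : Fm A (Mn n)} {H F : C → Mn n}

section met
variable {E : VB C n}

theorem Fr.met_iff (h : Fr A E g σ) (ok : Ok A) : E.IsMetric H ↔ ∀ i, ∀ z ∈ ball (0 : ℂ) A.R,
    Sx PosDef (fun w => (σ i w)ᴴ * H (pt A i w) * σ i w) z := by
  have k : ∀ i, ∀ z ∈ ball (0 : ℂ) A.R, (∃ G, SmExt (fun u => (loc (pt A i z) (E.g (pt A i z)) u)ᴴ *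
      loc (pt A i z) H u * loc (pt A i z) (E.g (pt A i z)) u) G (ctr (pt A i z)) ∧
      (G (ctr (pt A i z))).PosDef) ↔ Sx PosDef (fun w => (σ i w)ᴴ * H (pt A i w) * σ i w) z :=
    fun i z hz => by
      rw [sx_iff, ← ((ok i).bi (mem_tgt.2 hz)).sx (F' := fun w => (gam A E i z w)ᴴ * H (pt A i w) *
        gam A E i z w) ((pn (symm_tc ((mem_tgt (i := i)).2 hz))).mono fun w e => by
          simp only [loc, e])]
      refine ⟨fun a => (a.pd (h.un (i := i) hz)).congr ?_,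
        fun a => (a.pd (h.un (i := i) hz).inv).congr ?_⟩
      · filter_upwards [gam_nd ok E (i := i) hz] with w e
        rw [Matrix.mul_assoc, Matrix.mul_assoc, mul_nonsing_inv_cancel_left _ _ e.isUnit,
          ← Matrix.mul_assoc, ← Matrix.mul_assoc, ← conjTranspose_mul,
          mul_nonsing_inv_cancel_left _ _ e.isUnit]
      · filter_upwards [gam_nd ok E (i := i) hz, h.nd (i := i) hz] with w e f
        rw [Matrix.mul_inv_rev, nonsing_inv_nonsing_inv _ e.isUnit, Matrix.mul_assoc,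
          Matrix.mul_assoc, mul_nonsing_inv_cancel_left _ _ f.isUnit, ← Matrix.mul_assoc,
          ← Matrix.mul_assoc, ← conjTranspose_mul, mul_nonsing_inv_cancel_left _ _ f.isUnit]
  exact ⟨fun a i z hz => (k i z hz).1 (a _), fun a => pt_ind A fun i z hz => (k i z hz).2 (a i z hz)⟩

theorem met_to (ok : Ok A) (h : Fr A E g σ) (hH : E.IsMetric H) :
    ∃ k, A.MtM ∞ g k ∧ MetR A σ H k := by
  have a := fun i z hz => ((h.met_iff ok).1 hH i z hz).hx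
  refine ⟨fun i => hx fun w => (σ i w)ᴴ * H (pt A i w) * σ i w, ⟨fun i z hz =>
    (a i z hz).1.contDiffWithinAt, fun i z hz => (a i z hz).2.2, fun i j z hz => ?_⟩,
    fun i z hz => (a i z hz).2.1.symm⟩
  have c : ContDiffAt ℝ ∞ (g i j) z := hol_cd (h.cc.an hz)
  refine eq_of_ev (f := fun w => hx (fun w => (σ j w)ᴴ * H (pt A j w) * σ j w) (A.tr i j w))
    (g := fun w => (g i j w)ᴴ * hx (fun w => (σ i w)ᴴ * H (pt A i w) * σ i w) w * g i j w)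
    ((a j _ (tr_ball hz)).1.continuousAt.comp (an_tr hz).continuousAt)
    (cd_mul (cd_mul (cd_ct c) (a i z hz.1).1) c).continuousAt ?_
  filter_upwards [(bi_tr hz).tend.eventually (a j _ (tr_ball hz)).2.1, (a i z hz.1).2.1,
    h.tr i j z hz, ev_O hz] with w e1 e2 e3 e4
  rw [← e1, ← e2, e3, pt_tr e4, conjTranspose_mul]
  simp only [Matrix.mul_assoc]

theorem MetR.isMetric (hr : MetR A σ H k) (ok : Ok A) (h : Fr A E g σ) (hk : A.MtM ∞ g k) :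
    E.IsMetric H :=
  (h.met_iff ok).2 fun i z hz => ⟨_, hk.sm.at hz i, EventuallyEq.symm (hr i z hz), hk.pos i z hz⟩

theorem met_of [T2Space C] (h : Fr A E g σ) {N : WithTop ℕ∞} (hk : A.MtM N g k) :
    ∃ H, MetR A σ H k := by
  refine ⟨A.gl fun i w => ((σ i w)⁻¹)ᴴ * k i w * (σ i w)⁻¹, fun i z hz => ?_⟩
  filter_upwards [P275AD.gl_ev (u := fun i w => ((σ i w)⁻¹)ᴴ * k i w * (σ i w)⁻¹) (i := i)
    (fun i j z hz => by
      filter_upwards [h.tr i j z hz, ev_O hz] with w e1 e2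
      have d := (cc_det h.cc e2).isUnit
      rw [e1, hk.tr i j w e2, Matrix.mul_inv_rev, Matrix.mul_assoc, Matrix.mul_assoc,
        mul_nonsing_inv_cancel_left _ _ d, ← Matrix.mul_assoc, ← Matrix.mul_assoc,
        ← conjTranspose_mul, mul_nonsing_inv_cancel_left _ _ d]) hz, h.nd (i := i) hz] with w e1 e2
  rw [e1, Matrix.mul_assoc, nonsing_inv_mul_cancel_right _ _ e2.isUnit, ← Matrix.mul_assoc,
    ← conjTranspose_mul, nonsing_inv_mul _ e2.isUnit, conjTranspose_one, Matrix.one_mul]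

theorem MetR.uniq {k' : Fm A (Mn n)} (hr : MetR A σ H k) (hr' : MetR A σ H k') (hk : A.Ct k)
    (hk' : A.Ct k') (hz : z ∈ ball (0 : ℂ) A.R) : k i z = k' i z :=
  eq_of_ev ((hk i).continuousAt (isOpen_ball.mem_nhds hz))
    ((hk' i).continuousAt (isOpen_ball.mem_nhds hz))
    (((hr i z hz).and (hr' i z hz)).mono fun _ e => e.1.trans e.2.symm)

end met

variable {D : C →₀ ℤ} {E : Higgs C n D}

/-- flat frames of the statement, read in the chart `i` -/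
theorem Ad.flat_iff (h : Ad A E g a σ) (ok : Ok A) (hk : A.MtM ∞ g k) (hr : MetR A σ H k)
    (hz : z ∈ ball (0 : ℂ) A.R) : E.IsFlat H F (pt A i z) ↔ ∃ Φ : ℂ → Mn n, ContDiffAt ℝ ∞ Φ z ∧
      (Φ z).det ≠ 0 ∧ (∀ᶠ w in 𝓝[≠] z, F (pt A i w) = σ i w * Φ w) ∧
      ∀ᶠ w in 𝓝 z, Pf (k i) (a i) Φ w := by
  have t := (mem_tgt (i := i)).2 hz
  have b := (ok i).bi t
  have k1 : Sx (fun M => M.det ≠ 0) (fun w => (gam A E.toVB i z w)⁻¹ * F (pt A i w)) z ↔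
      ∃ Φ : ℂ → Mn n, ContDiffAt ℝ ∞ Φ z ∧ (Φ z).det ≠ 0 ∧
        ∀ᶠ w in 𝓝[≠] z, F (pt A i w) = σ i w * Φ w := by
    refine ⟨fun c => ?_, fun ⟨Φ, c, d, e⟩ =>
      (Sx.lmul ⟨Φ, c, EventuallyEq.rfl, d⟩ (h.fr.un (i := i) hz)).congr ?_⟩
    · obtain ⟨Φ, c, d, e⟩ := c.lmul (h.fr.un (i := i) hz).inv
      refine ⟨Φ, c, e, ?_⟩
      filter_upwards [d, gam_nd ok E.toVB (i := i) hz, h.fr.nd (i := i) hz] with w e1 e2 e3
      rw [← e1, Matrix.mul_inv_rev, nonsing_inv_nonsing_inv _ e2.isUnit, Matrix.mul_assoc,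
        mul_nonsing_inv_cancel_left _ _ e2.isUnit, mul_nonsing_inv_cancel_left _ _ e3.isUnit]
    · filter_upwards [e] with w e1
      rw [e1, Matrix.mul_assoc]
  have k2 : ∀ Φ : ℂ → Mn n, ContDiffAt ℝ ∞ Φ z → (∀ᶠ w in 𝓝[≠] z, F (pt A i w) = σ i w * Φ w) →
      ((∃ α β : ℂ → ℂ, ∀ᶠ u in 𝓝[≠] (ctr (pt A i z)),
        P275ST.dz (loc (pt A i z) F) u + ((loc (pt A i z) H u)⁻¹ * P275ST.dz (loc (pt A i z) H) u +
          jac (pt A i z) u • loc (pt A i z) E.θ u) * loc (pt A i z) F u = α u • loc (pt A i z) F u ∧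
        P275ST.dzb (loc (pt A i z) F) u + (loc (pt A i z) H u)⁻¹ *
          (jac (pt A i z) u • loc (pt A i z) E.θ u)ᴴ * loc (pt A i z) H u * loc (pt A i z) F u =
            β u • loc (pt A i z) F u) ↔ ∀ᶠ w in 𝓝[≠] z, Pf (k i) (a i) Φ w) := fun Φ c e => by
    rw [ev_pair, ← b.ev]
    refine eventually_congr ?_
    filter_upwards [pn b.near, (h.fr.me ok (i := i) hz).ev_an, h.fr.nd (i := i) hz, pn (sm_ev c),
      ev_ball hz, ev_nn (e.and (loc_tc t F)), ev_nn ((hr i z hz).and (loc_tc t H)), h.th i z hz,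
      pn ((ok i).jc_tc t), loc_tc t E.θ] with w e1 e2 e3 e4 e5 e6 e7 e8 e9 e10
    have e6 := e6.mono fun _ x => x.2.symm.trans x.1
    obtain ⟨f1, f2⟩ := flat_pt (T := jac (pt A i z) (tc (A.e i) z w) • loc (pt A i z) E.θ
      (tc (A.e i) z w)) (a := a i w) e1 e2 e3 (e4.differentiableAt one_ne_zero)
      ((hk.sm.at e5 i).differentiableAt (by simp)) (pd_ne (hk.pos i w e5)) e6
      (e7.mono fun _ x => x.2 ▸ x.1) (by rw [e8, e9, smul_smul, mul_comm (deriv _ _), ← e10])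
    rw [Pf, ← scal_iff e1.ne e3 f1, ← scal_iff ((map_ne_zero _).2 e1.ne) e3 f2, ← e6.self_of_nhds]
  rw [Higgs.IsFlat, sx_iff (P := fun M => M.det ≠ 0), ← b.sx (F' := fun w => (gam A E.toVB i z w)⁻¹ * F (pt A i w))
    ((pn (symm_tc t)).mono fun w e => by simp only [loc, e]), k1]
  exact ⟨fun ⟨⟨Φ, c, d, e⟩, f⟩ => ⟨Φ, c, d, e, pf_ext (hk.sm.at hz i) (pd_ne (hk.pos i z hz))
    (h.hol.an hz i) c d ((k2 Φ c e).1 f)⟩, fun ⟨Φ, c, d, e, f⟩ => ⟨⟨Φ, c, d, e⟩, (k2 Φ c e).2 (pn f)⟩⟩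

end Vale.Agent.P275AD
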