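import Vale.Agent.P275AD.Gau
import Vale.Agent.P275GC.Ex
import Vale.Agent.P275Z.Brg

/-!
# P275, blocks ATL and RPA
-/

set_option linter.unusedSectionVars false

open scoped Matrix.Norms.Operator Topology ContDiff Manifold
open Filter Set Matrix Metric
open Vale.Agent.P275ST (VB Higgs deg)
open Vale.Agent.P275GC Vale.Agent.P275GC.At Vale.Agent.P275NA
open Vale.Agent.P275MO (Dat Good off Ob IsoBy)
open Vale.Agent.P275Z (Sit ATL RPA Rp tauX)

noncomputable section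

namespace Vale.Agent.P275AD

theorem atl : ATL := fun S => by
  obtain ⟨A, -, ok⟩ := exists_at S.C
  obtain ⟨l, s, h⟩ := exists_dv (A := A) ok S.D
  exact ⟨⟨A, ok, l, s, h, S.t2, S.cpt, S.con, h.cc, h.deg, S.adm.hn, S.adm.cop⟩⟩

section
variable {C : Type} [TopologicalSpace C] [ChartedSpace ℂ C] {A : At C} {n : ℕ} {l : Cy A ℂ}
  {D : C →₀ ℤ} {E : Higgs C n D} {z : Dat C A.N n}

/-- a representing object on all small discs -/
theorem rp_small (h : Rp A E z) : ∃ (r : ℝ) (_ : 1 < r) (h2 : r ≤ A.R) (a σ : Fm A (Mn n)),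
    ∀ r' (h1' : 1 < r') (h3 : r' ≤ r), Ad (A.res r' h1' (h3.trans h2)) E z.g a σ ∧
      Agr (A.res r' h1' (h3.trans h2)) z a := by
  obtain ⟨-, r, h1, h2, a, σ, b, c⟩ := h
  exact ⟨r, h1, h2, a, σ, fun r' h1' h3 => ⟨b.mono h1' h3,
    fun i w e => c i w ⟨ball_subset_ball h3 e.1, e.2⟩⟩⟩

end

theorem rpa (mf : ∀ (S : Sit) (A : At S.C), MFR A) : RPA := fun S T => by
  have ok := T.ok
  refine ⟨fun E => ?_, fun z h0 => ?_, fun E E' z z' ex h h' => ?_⟩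
  · obtain ⟨g, a, σ, h⟩ := toCoc ok E
    obtain ⟨u, hu⟩ := h.detI ok T.dv
    obtain ⟨g', a', φ, b, c, d, e, f⟩ := exists_norm (two_pos.trans_le S.adm.hn) (h.hig ok) hu
    have k := h.iso b c d fun i w x => (e i w x).trans_ne (hu.ne i w x)
    have gd := good_dat S.p (k.hig ok) f fun i w x => k.trace ok x
    have st := (Agr.stab_iff (z := dat T.A S.p g' a') (fun _ _ _ => rfl) c gd T.dv.cc rfl).2
      (k.stab ok)
    exact ⟨⟨dat T.A S.p g' a', ⟨T.A.R, T.A.hR, le_rfl, P275MB.Good.res gd,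
      (P275MB.stab_res gd).2 st⟩, Submodule.zero_mem _⟩, rfl, rfl, T.A.R, T.A.hR, le_rfl, a', _,
      k.res, fun _ _ _ => rfl⟩
  · obtain ⟨⟨r, h1, h2, gd, st⟩, hR⟩ := z.2
    obtain ⟨a, ha, ag⟩ := exists_agr gd ((Submodule.mem_bot ℂ).1 hR)
    obtain ⟨E, σ, h⟩ := ofCoc (A := T.A.res r h1 h2) ok.res (mf S _) (ag.hig ha gd h0)
      ((ag.stab_iff ha gd T.dv.cc.res h0).1 st) (fun i w e => ag.trace ha gd e) T.dv.res
      (u := fun _ _ => 1) ⟨fun _ => differentiableOn_const 1, fun _ _ _ => one_ne_zero,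
        fun i j w e => by rw [one_mul, mul_one, gd.det i j w e]⟩
    exact ⟨E, h0, r, h1, h2, a, σ, h, ag⟩
  · obtain ⟨r₁, a1, b1, a, σ, k⟩ := rp_small h
    obtain ⟨r₂, a2, b2, a', σ', k'⟩ := rp_small h'
    obtain ⟨r₃, a3, b3, gd, gd'⟩ := P275MB.Ob.ex2 z z'
    have c := lt_min a3 (lt_min a1 a2)
    obtain ⟨k1, k2⟩ := k _ c ((min_le_right _ _).trans (min_le_left _ _))
    obtain ⟨k3, k4⟩ := k' _ c ((min_le_right _ _).trans (min_le_right _ _))
    have g1 := P275MB.Good.mono gd c (min_le_left _ _)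
    have g2 := P275MB.Good.mono gd' c (min_le_left _ _)
    have e := fun φ => Agr.hom_iff (φ := φ) k2 k4 k1.hol k3.hol h.1 h'.1 ex
    rw [iso_iff ok.res k1 k3, P275MB.pt_eq_iff' g1 g2]
    refine ⟨fun ⟨u, f, d⟩ => ?_, fun ⟨u, _, _, f⟩ => ⟨u, (e u).1 f.toHom, f.det⟩⟩
    obtain ⟨i, x, -⟩ := (T.A.res _ c ((min_le_left _ _).trans b3)).cov z.1.x
    exact ⟨u, _, trivial, P275MB.Hom.isoBy g1 g2 ((e u).2 f) d x⟩

end Vale.Agent.P275AD
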