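import Vale.Agent.P275AD.Higgs
import Vale.Agent.P275KR.Gm
import Vale.Agent.P275GC.Deg

/-!
# P275, block AD: degrees and stability
-/

set_option linter.unusedSectionVars false

open scoped Matrix.Norms.Operator Topology ContDiff Manifold
open Filter Set Matrix Metric
open Vale.Agent.P281Z.Hm (an_ent an_of an_mul an_det an_inv an_trace an_mulVec)
open Vale.Agent.P275ST (ctr loc jac MerAt ord HolExt SmExt VB Higgs MerMx deg H0 Base)
open Vale.Agent.P275GC Vale.Agent.P275GC.At Vale.Agent.P275NA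
open Vale.Agent.P275KR (Sp rg sat Gd Loc rg_mul)

noncomputable section

namespace Vale.Agent.P275AD

section lin
variable {n r : ℕ}

theorem exists_minor {t : Mr n r} (h : Function.Injective t.mulVec) :
    ∃ I : Fin r → Fin n, (t.submatrix I id).det ≠ 0 := by
  obtain ⟨L, hL⟩ := P275KR.exists_linv h
  by_contra c
  push Not at c
  have e : L * t = fun k => ∑ j, L k j • t j := by
    ext k b
    simp [Matrix.mul_apply]
  have a : (L * t).det = ∑ I : Fin r → Fin n, (∏ k, L k (I k)) • (t.submatrix I id).det := by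
    rw [e]
    refine (detRowAlternating.toMultilinearMap.map_sum fun k j => L k j • t j).trans
      (Finset.sum_congr rfl fun I _ => ?_)
    exact detRowAlternating.toMultilinearMap.map_smul_univ (fun k => L k (I k)) fun k => t (I k)
  simp [hL, c] at a

theorem sub_mul (N : Mr n r) (Q : Mn r) (I : Fin r → Fin n) :
    (N * Q).submatrix I id = N.submatrix I id * Q := rfl

theorem inj_of_minor {t : Mr n r} {I : Fin r → Fin n} (h : (t.submatrix I id).det ≠ 0) :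
    Function.Injective t.mulVec :=
  P275DG.inj_of_det (L := (1 : Mn n).submatrix I id) (by
    rwa [show (1 : Mn n).submatrix I id * t = ((1 : Mn n) * t).submatrix I id from rfl,
      Matrix.one_mul])

theorem inj_mul {M : Mn n} {t : Mr n r} (hM : M.det ≠ 0) (h : Function.Injective t.mulVec) :
    Function.Injective (M * t).mulVec := fun x y e => h
  (mulVec_injective_iff_isUnit.2 ((isUnit_iff_isUnit_det _).2 hM.isUnit)
    (by simpa only [mulVec_mulVec] using e))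

theorem rg_unit (t : Mr n r) {Q : Mn r} (h : Q.det ≠ 0) : rg (t * Q) = rg t :=
  P275KR.rg_mul_of_rinv t (mul_nonsing_inv Q h.isUnit)

open Classical in
/-- the basis of `W` which is normalised along the rows `I` -/
def nf (I : Fin r → Fin n) (W : Sp n) : Mr n r :=
  if h : ∃ M : Mr n r, rg M = W ∧ M.submatrix I id = 1 then h.choose else 0

theorem minor_iff {N : Mr n r} {I : Fin r → Fin n} :
    (∃ M : Mr n r, rg M = rg N ∧ M.submatrix I id = 1) ↔ (N.submatrix I id).det ≠ 0 := by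
  refine ⟨fun ⟨M, a, b⟩ => ?_, fun h => ⟨_, rg_unit N (det_inv_ne h), by
    rw [sub_mul, mul_nonsing_inv _ h.isUnit]⟩⟩
  obtain ⟨Q, rfl⟩ := P275DG.ex_fac (t := N) (s := M) fun v => a.le ⟨v, rfl⟩
  exact left_ne_zero_of_mul_eq_one (by rw [← Matrix.det_mul, ← sub_mul, b, det_one])

theorem nf_eq {N : Mr n r} {I : Fin r → Fin n} (h : (N.submatrix I id).det ≠ 0) :
    nf I (rg N) = N * (N.submatrix I id)⁻¹ := by
  have e := minor_iff.2 h
  obtain ⟨a, b⟩ := e.choose_spec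
  rw [nf, dif_pos e]
  obtain ⟨Q, c⟩ := P275DG.ex_fac (t := N) (s := e.choose) fun v => a.le ⟨v, rfl⟩
  rw [c, sub_mul] at b
  rw [c, inv_eq_right_inv b]

end lin

variable {C : Type} [TopologicalSpace C] [ChartedSpace ℂ C] [IsManifold 𝓘(ℂ) ω C] {A : At C}
  {i j : Fin A.N} {z : ℂ} {n r : ℕ} {E : VB C n} {g : Cy A (Mn n)} {σ a : Fm A (Mn n)}
  {θ : C → Mn n} {s : C → Mr n r} {S : Fm A (Sp n)}

/-- the columns of `s` span `S` generically -/
def Spn (A : At C) (σ : Fm A (Mn n)) (s : C → Mr n r) (S : Fm A (Sp n)) : Prop :=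
  ∀ i, ∀ z ∈ ball (0 : ℂ) A.R, ∀ᶠ w in 𝓝[≠] z, rg ((σ i w)⁻¹ * s (pt A i w)) = S i w

theorem Fr.me_s (h : Fr A E g σ) (ok : Ok A) (hs : MerMx s) (hz : z ∈ ball (0 : ℂ) A.R) :
    Me (fun w => (σ i w)⁻¹ * s (pt A i w)) z :=
  (h.me ok hz).inv.mul (((ok i).me (mem_tgt.2 hz)).2 (hs _))

theorem mord_pt (ok : Ok A) (hz : z ∈ ball (0 : ℂ) A.R) : E.mord s (pt A i z) =
    Finset.univ.inf fun I : Fin r → Fin n => meromorphicOrderAt
      (fun w => (((gam A E i z w)⁻¹ * s (pt A i w)).submatrix I id).det) z := by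
  rw [VB.mord]
  refine Finset.inf_congr rfl fun I _ => ?_
  exact ((ok i).ord
    (f := fun y => (((E.g (pt A i z) y)⁻¹ * s y).submatrix I id).det) (mem_tgt.2 hz)).symm

theorem Fr.mord_eq (h : Fr A E g σ) (ok : Ok A) (hz : z ∈ ball (0 : ℂ) A.R) {t : ℂ → Mr n r}
    (t1 : AnalyticAt ℂ t z) (t2 : Function.Injective (t z).mulVec) {c : ℂ → Mn r} (c1 : Me c z)
    (e : ∀ᶠ w in 𝓝[≠] z, (σ i w)⁻¹ * s (pt A i w) = t w * c w) :
    E.mord s (pt A i z) = meromorphicOrderAt (fun w => (c w).det) z := by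
  obtain ⟨U, u1, u2, u3⟩ := h.un (i := i) hz
  have an : ∀ I : Fin r → Fin n, AnalyticAt ℂ (fun w => ((U w * t w).submatrix I id).det) z :=
    fun I => an_det (an_of fun b d => an_ent (an_mul u1 t1) _ _)
  have k : ∀ I : Fin r → Fin n, meromorphicOrderAt
      (fun w => (((gam A E i z w)⁻¹ * s (pt A i w)).submatrix I id).det) z =
      meromorphicOrderAt (fun w => ((U w * t w).submatrix I id).det) z +
        meromorphicOrderAt (fun w => (c w).det) z := fun I => by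
    refine (meromorphicOrderAt_congr ?_).trans (meromorphicOrderAt_mul (an I).meromorphicAt c1.det)
    filter_upwards [e, u2, h.nd (i := i) hz] with w e1 e2 e3
    rw [Pi.mul_apply, ← Matrix.det_mul, ← sub_mul, Matrix.mul_assoc, ← e1, ← e2, Matrix.mul_assoc,
      mul_nonsing_inv_cancel_left _ _ e3.isUnit]
  rw [mord_pt ok hz]
  simp only [k]
  refine le_antisymm ?_ (Finset.le_inf fun I _ => le_add_of_nonneg_left (an I).meromorphicOrderAt_nonneg)
  obtain ⟨I, hI⟩ := exists_minor (inj_mul u3 t2)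
  refine (Finset.inf_le (Finset.mem_univ I)).trans_eq ?_
  rw [(un_an (F := fun w => (U w * t w).submatrix I id)
    (an_of fun b d => an_ent (an_mul u1 t1) _ _) hI).ord, zero_add]

theorem Spn.fac (sp : Spn A σ s S) (h : Fr A E g σ) (ok : Ok A) (hs : MerMx s)
    (hz : z ∈ ball (0 : ℂ) A.R) {t : ℂ → Mr n r} (ht : FrAt (S i) t z) : ∃ c : ℂ → Mn r,
      Me c z ∧ Nd c z ∧ ∀ᶠ w in 𝓝[≠] z, (σ i w)⁻¹ * s (pt A i w) = t w * c w := by
  obtain ⟨t', a, b⟩ := P275KR.an_linv ht.an ht.inj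
  have e : ∀ᶠ w in 𝓝[≠] z, (σ i w)⁻¹ * s (pt A i w) = t w * (t' w * ((σ i w)⁻¹ * s (pt A i w))) := by
    filter_upwards [sp i z hz, pn ht.rg, pn b] with w e1 e2 e3
    exact (P275KR.eq_mul_of_le e3 (e1.trans e2.symm).le).symm
  refine ⟨_, (me_an a).mul (h.me_s ok hs hz), ?_, e⟩
  filter_upwards [e, sp i z hz, pn ht.rg, pn b] with w e1 e2 e3 e4
  obtain ⟨Q, hQ⟩ := P275DG.ex_fac (t := (σ i w)⁻¹ * s (pt A i w)) (s := t w)
    fun v => (e3.trans e2.symm).le ⟨v, rfl⟩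
  exact left_ne_zero_of_mul_eq_one (by rw [← Matrix.det_mul, Matrix.mul_assoc, ← hQ, e4, det_one])

variable [T2Space C]

theorem Spn.deg (sp : Spn A σ s S) (h : Fr A E g σ) (ok : Ok A) (hs : MerMx s) (hS : Sub A g r S) :
    (∀ x, E.mord s x ≠ ⊤) ∧ degS A g r S = E.degS s := by
  have k : ∀ i, ∀ z ∈ ball (0 : ℂ) A.R, ∃ (t : ℂ → Mr n r) (c : ℂ → Mn r), FrAt (S i) t z ∧
      Me c z ∧ Nd c z ∧ (∀ᶠ w in 𝓝[≠] z, (σ i w)⁻¹ * s (pt A i w) = t w * c w) ∧
      E.mord s (pt A i z) = meromorphicOrderAt (fun w => (c w).det) z := fun i z hz => by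
    obtain ⟨t, ht⟩ := hS.fr i z hz
    obtain ⟨c, c1, c2, c3⟩ := sp.fac h ok hs hz ht
    exact ⟨t, c, ht, c1, c2, c3, h.mord_eq ok hz ht.an ht.inj c1 c3⟩
  refine ⟨pt_ind A fun i z hz => ?_, ?_⟩
  · obtain ⟨t, c, -, c1, c2, -, e⟩ := k i z hz
    exact e.trans_ne ((meromorphicOrderAt_ne_top_iff_eventually_ne_zero c1.det).2 c2)
  have hk := h.cc.mtM
  have pl := (pl' (A := A) (β := fun i z => -cvS A r (A.mtM g) S i z)
    (v := A.gl fun i w => Gd (A.mtM g i w) ((σ i w)⁻¹ * s (pt A i w)))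
    (m := fun x => (E.mord s x).untop₀) (A.finite_of_ev fun i z hz => ?_) fun i z hz => ?_).2.2
  · rw [int_neg, neg_mul, neg_inj] at pl
    rw [degS, pl, inv_mul_cancel_left₀ Real.pi_ne_zero]
    rfl
  · obtain ⟨t, c, ht, c1, c2, c3, -⟩ := k i z hz
    filter_upwards [c1.ev_un c2, pn (P275KR.fr_ev ht), pn (ev_punct c3), ev_ball hz]
      with w e1 e2 e3 e4
    rw [h.mord_eq ok e4 e2.an e2.inj e1.me e3, e1.ord]
    simp
  · obtain ⟨t, c, ht, c1, c2, c3, e⟩ := k i z hz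
    obtain ⟨κ, k1, k2, k3⟩ := (meromorphicOrderAt_ne_top_iff c1.det).1
      ((meromorphicOrderAt_ne_top_iff_eventually_ne_zero c1.det).2 c2)
    have p1 : ContDiffAt ℝ 2 (fun w => Complex.normSq (κ w)) z := cd_nsq (cd_an k1)
    have p2 : ContDiffAt ℝ 2 (fun w => Gd (A.mtM g i w) (t w)) z :=
      P275KR.cd_Gd ((hk.sm.at hz i).of_le ENat.LEInfty.out) ht.an
    have p3 := Complex.normSq_pos.2 k2
    have p4 := P275KR.Gd_pos (hk.pos i z hz) ht.inj
    refine ⟨fun w => Complex.normSq (κ w) * Gd (A.mtM g i w) (t w), p1.mul p2, mul_pos p3 p4, ?_, ?_⟩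
    · rw [P275DG.cvS_lp hk hz ht, neg_neg]
      refine Eq.symm ((lp_congr (v := fun w => Real.log (Complex.normSq (κ w)) +
        Real.log (Gd (A.mtM g i w) (t w))) ?_).trans ?_)
      · filter_upwards [p1.continuousAt.eventually_ne p3.ne', p2.continuousAt.eventually_ne p4.ne']
          with w e1 e2 using Real.log_mul e1 e2
      · rw [lp_add (p1.log p3.ne') (p2.log p4.ne'), lp_log_nsq k1 k2, zero_add]
        rfl
    · filter_upwards [P275AD.gl_ev (u := fun i w => Gd (A.mtM g i w) ((σ i w)⁻¹ * s (pt A i w))) (i := i)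
        (fun i j z hz => by
          filter_upwards [h.tr i j z hz, ev_O hz] with w e1 e2
          rw [hk.tr i j w e2, ← P275KR.Gd_tr, e1, pt_tr e2, Matrix.mul_inv_rev, Matrix.mul_assoc,
            mul_nonsing_inv_cancel_left _ _ (cc_det h.cc e2).isUnit]) hz, c3, k3] with w e1 e2 e3
      rw [e1, e2, P275KR.Gd_mul, e3, e, smul_eq_mul, map_mul, Complex.normSq_eq_norm_sq ((w - z) ^ _),
        norm_zpow, mul_assoc, mul_comm (2 : ℤ), _root_.zpow_mul]
      rfl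

omit [ChartedSpace ℂ C] [IsManifold 𝓘(ℂ) ω C] in
theorem Dv.deg {D : C →₀ ℤ} {l : Cy A ℂ} {s : Fm A ℂ} (h : Dv A D l s) : A.deg l = deg D := by
  rw [Mero.deg ⟨h.mer, h.ord, h.tr⟩ h.cc, finsum_eq_sum_of_support_subset (s := D.support) _
    fun x hx => Finsupp.mem_support_iff.2 hx]
  rfl

theorem Fr.degM {D : C →₀ ℤ} (h : Fr A E g σ) (ok : Ok A) {f : C → ℂ} (hf : E.DetIso D f) :
    A.degM g = deg D := ((h.dv_iff ok).2 hf).deg

omit [T2Space C] in
/-- the saturated subbundle generated by meromorphic sections -/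
theorem exists_sub (h : Fr A E g σ) (ok : Ok A) (hs : MerMx s) (h0 : ∀ x, E.mord s x ≠ ⊤) :
    Sub A g r (fun i => sat fun w => rg ((σ i w)⁻¹ * s (pt A i w))) ∧
      Spn A σ s fun i => sat fun w => rg ((σ i w)⁻¹ * s (pt A i w)) := by
  have l : ∀ i, ∀ z ∈ ball (0 : ℂ) A.R, Loc (fun w => rg ((σ i w)⁻¹ * s (pt A i w))) z :=
    fun i z hz => by
      obtain ⟨N, X, a, b⟩ := (h.me_s ok hs (i := i) hz).pow
      refine Loc.of_rg a ?_
      filter_upwards [b, ev_ne z] with w e1 e2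
      rw [← e1, ← rg_unit _ (Q := (w - z) ^ N • (1 : Mn r)) (by
        rw [det_smul, det_one, mul_one]; exact pow_ne_zero _ (pow_ne_zero _ (sub_ne_zero.2 e2))),
        Matrix.mul_smul, Matrix.mul_one]
  refine ⟨⟨fun i z hz => ?_, fun i j z hz => P275KR.tr_eq_of_le h.cc
    (P := fun i => sat fun w => rg ((σ i w)⁻¹ * s (pt A i w))) (fun i j z hz => P275KR.sat_tr h.cc
      (P := fun i w => rg ((σ i w)⁻¹ * s (pt A i w))) hz ?_) hz⟩, fun i z hz => ?_⟩
  · obtain ⟨q, t, a, b⟩ := (l i z hz).fr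
    have c := h0 (pt A i z)
    rw [mord_pt ok hz, Ne, Finset.inf_eq_top_iff] at c
    push Not at c
    obtain ⟨I, -, hI⟩ := c
    have d := (meromorphicOrderAt_ne_top_iff_eventually_ne_zero (((gam_me ok E hz).inv.mul
      (((ok i).me (mem_tgt.2 hz)).2 (hs _))).sub I id).det).1 hI
    obtain ⟨w, e1, e2, e3, e4, e5⟩ := (b.and (d.and ((pn (P275KR.fr_ev a)).and
      (Eventually.and (h.nd (i := i) hz) (gam_nd ok E (i := i) hz))))).exists
    have f := inj_mul (det_inv_ne e4) (inj_mul e5 (inj_of_minor e2))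
    rw [mul_nonsing_inv_cancel_left _ _ e5.isUnit] at f
    obtain rfl : q = r := by
      rw [← P275KR.fr_rank e3, e1, P275KR.finrank_rg f, Fintype.card_fin]
    exact ⟨t, a⟩
  · filter_upwards [h.tr i j z hz, ev_O hz] with w e1 e2
    rw [← rg_mul, e1, pt_tr e2, Matrix.mul_inv_rev, Matrix.mul_assoc,
      mul_nonsing_inv_cancel_left _ _ (cc_det h.cc e2).isUnit]
  · obtain ⟨q, t, -, b⟩ := (l i z hz).fr
    exact b.mono fun _ e => e.symm

/-- meromorphic generators of a subbundle -/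
theorem exists_spn [ConnectedSpace C] (h : Fr A E g σ) (ok : Ok A) (hS : Sub A g r S) :
    ∃ (s : C → Mr n r) (I : Fin r → Fin n), MerMx s ∧ Spn A σ s S ∧
      ∀ i, ∀ z ∈ ball (0 : ℂ) A.R, ∀ᶠ w in 𝓝[≠] z, (s (pt A i w)).submatrix I id = 1 := by
  let W : Fm A (Sp n) := fun i w => (S i w).map (σ i w).mulVecLin
  have tr : ∀ i j, ∀ z ∈ A.O i j, ∀ᶠ w in 𝓝[≠] z, W j (A.tr i j w) = W i w := fun i j z hz => by
    filter_upwards [h.tr i j z hz, ev_O hz] with w e1 e2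
    simp only [W, e1, hS.tr i j w e2, mulVecLin_mul, Submodule.map_comp]
  have fr : ∀ {i z t}, FrAt (r := r) (S i) t z → ∀ᶠ w in 𝓝 z, W i w = rg (σ i w * t w) :=
    fun ht => ht.rg.mono fun w e => by simp only [W, rg_mul, rg, e]
  obtain ⟨i₀, z₀, h₀, -⟩ := ex_pt A (Classical.arbitrary C)
  obtain ⟨t₀, ht₀⟩ := hS.fr i₀ z₀ h₀
  obtain ⟨w₀, e1, e2, e3⟩ := (((h.me ok h₀).ev_an.and (h.nd (i := i₀) h₀)).and
    ((pn (P275KR.fr_ev ht₀)).and (ev_ball h₀))).exists
  obtain ⟨I, hI⟩ := exists_minor (inj_mul e1.2 e2.inj)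
  let P : Fm A Prop := fun i z => ∀ᶠ w in 𝓝[≠] z, ∃ M : Mr n r, rg M = W i w ∧ M.submatrix I id = 1
  have p1 : ∀ {i z t}, FrAt (r := r) (S i) t z →
      (P i z ↔ ∀ᶠ w in 𝓝[≠] z, ((σ i w * t w).submatrix I id).det ≠ 0) := fun ht =>
    eventually_congr ((pn (fr ht)).mono fun w e => by rw [e, minor_iff])
  have p : ∀ i, ∀ z ∈ ball (0 : ℂ) A.R, P i z := fun i z hz => by
    refine Fn.conn (P := P) (fun i j z hz => propext ?_) (fun i z _ => ev_punct) (fun i z hz f => ?_)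
      e3 ((p1 e2).2 (pn (ev_det (F := fun w => (σ i₀ w * t₀ w).submatrix I id)
        (an_of fun b d => an_ent (an_mul e1.1 e2.an) _ _) hI))) i hz
    · exact (eventually_congr ((tr i j z hz).mono fun w e => by rw [e])).trans (bi_tr hz).ev
    · obtain ⟨t, ht⟩ := hS.fr i z hz
      rcases (((h.me ok hz).mul (me_an ht.an)).sub I id).det.eventually_eq_zero_or_eventually_ne_zero
        with c | c
      · obtain ⟨w, c1, c2, c3⟩ := (f.and_eventually ((ev_punct c).and (P275KR.fr_ev ht))).exists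
        obtain ⟨u, d1, d2⟩ := (((p1 c3).1 c1).and c2).exists
        exact (d1 d2).elim
      · exact (p1 ht).2 c
  have k : ∀ i, ∀ z ∈ ball (0 : ℂ) A.R, ∃ t : ℂ → Mr n r, FrAt (S i) t z ∧ ∀ᶠ w in 𝓝[≠] z,
      ((σ i w * t w).submatrix I id).det ≠ 0 ∧ A.gl (fun i w => nf I (W i w)) (pt A i w) =
        σ i w * t w * ((σ i w * t w).submatrix I id)⁻¹ := fun i z hz => by
    obtain ⟨t, ht⟩ := hS.fr i z hz
    refine ⟨t, ht, ?_⟩
    filter_upwards [(p1 ht).1 (p i z hz), pn (fr ht), P275AD.gl_ev (u := fun i w => nf I (W i w)) (i := i)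
      (fun i j z hz => (tr i j z hz).mono fun w e => congrArg _ e) hz] with w d1 d2 d3
    exact ⟨d1, by rw [d3, d2, nf_eq d1]⟩
  refine ⟨A.gl fun i w => nf I (W i w), I, pt_ind A fun i z hz => ?_, fun i z hz => ?_,
    fun i z hz => ?_⟩ <;> obtain ⟨t, ht, d⟩ := k i z hz
  · have := (h.me ok (i := i) hz).mul (me_an ht.an)
    exact ((ok i).me (mem_tgt.2 hz)).1 ((this.mul (this.sub I id).inv).congr
      (d.mono fun _ e => e.2.symm))
  · filter_upwards [d, pn ht.rg, h.nd (i := i) hz] with w d1 d2 d3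
    rw [d1.2, Matrix.mul_assoc, nonsing_inv_mul_cancel_left _ _ d3.isUnit,
      rg_unit _ (det_inv_ne d1.1), ← d2]
  · filter_upwards [d] with w d1
    rw [d1.2, sub_mul, mul_nonsing_inv _ d1.1.isUnit]

omit [T2Space C] in
theorem Th.mul_s (ht : Th A σ θ a) (h : Fr A E g σ) (hz : z ∈ ball (0 : ℂ) A.R) :
    ∀ᶠ w in 𝓝[≠] z, a i w * ((σ i w)⁻¹ * s (pt A i w)) =
      jc (A.e i) w • ((σ i w)⁻¹ * (θ (pt A i w) * s (pt A i w))) := by
  filter_upwards [ht i z hz, h.nd (i := i) hz] with w e1 e2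
  refine lcancel e2 ?_
  rw [← Matrix.mul_assoc, e1, Matrix.mul_assoc, mul_nonsing_inv_cancel_left _ _ e2.isUnit,
    Matrix.mul_smul, mul_nonsing_inv_cancel_left _ _ e2.isUnit, Matrix.smul_mul]

/-- the stability condition of the statement -/
def StS (E : VB C n) (θ : C → Mn n) (d : ℤ) : Prop :=
  ∀ (r : ℕ) (s : C → Mr n r), 0 < r → r < n → MerMx s → (∀ x, E.mord s x ≠ ⊤) →
    (∃ m : C → Mn r, ∀ x, ∀ᶠ y in 𝓝[≠] x, θ y * s y = s y * m y) → (n : ℤ) * E.degS s < r * d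

theorem stab_iff [ConnectedSpace C] (ok : Ok A) (h : Fr A E g σ) (ht : Th A σ θ a) (ha : A.Hl a)
    {d : ℤ} (hd : A.degM g = d) : StS E θ d ↔ Stab A g a := by
  refine ⟨fun st r S r0 rn hS hI => ?_, fun st r s r0 rn hs h0 ⟨m, hm⟩ => ?_⟩
  · obtain ⟨s, I, s1, s2, s3⟩ := exists_spn h ok hS
    obtain ⟨d1, d2⟩ := s2.deg h ok s1 hS
    rw [d2, hd]
    refine mod_cast st r s r0 rn s1 d1 ⟨fun y => (θ y * s y).submatrix I id,
      ev_ind (A := A) fun i z hz => ?_⟩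
    filter_upwards [ht.mul_s (s := s) (i := i) h hz, s2 i z hz, s3 i z hz, h.nd (i := i) hz,
      ev_ball hz] with w e1 e2 e3 e4 e5
    obtain ⟨Q, hQ⟩ := P275DG.ex_fac (t := (σ i w)⁻¹ * s (pt A i w))
      (s := a i w * ((σ i w)⁻¹ * s (pt A i w))) fun v => by
        rw [← mulVec_mulVec]
        exact e2.ge (hI i w e5 _ (e2.le ⟨v, rfl⟩))
    have : θ (pt A i w) * s (pt A i w) = s (pt A i w) * ((jc (A.e i) w)⁻¹ • Q) := by
      refine lcancel (det_inv_ne e4) ?_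
      rw [Matrix.mul_smul, Matrix.mul_smul, ← Matrix.mul_assoc _ _ Q, ← hQ, e1,
        inv_smul_smul₀ (ok.jc_ne e5)]
    rw [this, sub_mul, e3, Matrix.one_mul]
  · obtain ⟨s1, s2⟩ := exists_sub h ok hs h0
    have := st r _ r0 rn s1 fun i z hz => by
      rintro _ ⟨u, u1, rfl, u2⟩
      refine ⟨fun w => a i w *ᵥ u w, P275KR.ca_mulVec (ha.an hz i).continuousAt u1, rfl, ?_⟩
      filter_upwards [u2, ht.mul_s (s := s) (i := i) h hz, (ev_A hz).1 (hm _)] with w ⟨v, e1⟩ e2 e3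
      refine ⟨(jc (A.e i) w • m (pt A i w)) *ᵥ v, ?_⟩
      rw [← e1, mulVecLin_apply, mulVecLin_apply, mulVec_mulVec, mulVec_mulVec, e2, e3,
        Matrix.mul_smul, Matrix.mul_assoc]
    rw [(s2.deg h ok hs s1).2, hd] at this
    exact_mod_cast this

variable {D : C →₀ ℤ}

theorem Ad.degM {E : Higgs C n D} (h : Ad A E g a σ) (ok : Ok A) : A.degM g = deg D :=
  E.det.elim fun _ => h.fr.degM ok

theorem Ad.stab [ConnectedSpace C] {E : Higgs C n D} (h : Ad A E g a σ) (ok : Ok A) : Stab A g a :=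
  (stab_iff ok h.fr h.th h.hol (h.degM ok)).1 E.stable

theorem ofCoc [ConnectedSpace C] (ok : Ok A) (mf : MFR A) (hg : Hig A A.d g a) (st : Stab A g a)
    (tr : ∀ i, ∀ z ∈ ball (0 : ℂ) A.R, (a i z).trace = 0) {l : Cy A ℂ} {s u : Fm A ℂ}
    (hs : Dv A D l s) (hu : DetI A g l u) : ∃ (E : Higgs C n D) (σ : Fm A (Mn n)), Ad A E g a σ := by
  obtain ⟨E, σ, h⟩ := ofFr ok mf hg.cc
  obtain ⟨θ, ht⟩ := exists_th ok h hg
  obtain ⟨f, hf, -⟩ := h.detIso ok hs hu
  exact ⟨⟨E, θ, pt_ind A fun i z hz => (th_iff ok h hz).2 (ht.ho h hg.hol hz),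
    (ht.trace_iff ok h hg.hol).2 tr, ⟨f, hf⟩, (stab_iff ok h ht hg.hol (h.degM ok hf)).2 st⟩,
    σ, h, hg.hol, ht⟩

end Vale.Agent.P275AD
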