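import Vale.Agent.P275AD.Met
import Vale.Agent.P275AD.Rpa
import Vale.Agent.P275RR.Out

/-!
# P275, block TRV: smooth trivialisations of `O(D)` over the punctured curve
-/

set_option linter.unusedSectionVars false

open scoped Topology ContDiff Manifold
open Filter Set Metric
open Vale.Agent.P275ST (ctr loc IsTriv)
open Vale.Agent.P275GC Vale.Agent.P275GC.At Vale.Agent.P275NA
open Vale.Agent.P275HK (hol_cd)
open Vale.Agent.P275MO (off)
open Vale.Agent.P275Z (TRV RPA trv)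

noncomputable section

namespace Vale.Agent.P275AD

theorem rpa' : RPA := rpa fun _ A => P275RR.mfr A

section germ
variable {k k' : ℤ} {f f' φ ψ : ℂ → ℂ} {z u : ℂ}

/-- `f` is `(w - z) ^ (-k)` times a smooth unit -/
def Tv (k : ℤ) (f : ℂ → ℂ) (z : ℂ) : Prop :=
  ∃ v : ℂ → ℂ, ContDiffAt ℝ ∞ v z ∧ v z ≠ 0 ∧ ∀ᶠ w in 𝓝[≠] z, (w - z) ^ k * f w = v w

theorem Tv.congr (h : Tv k f z) (e : f =ᶠ[𝓝[≠] z] f') : Tv k f' z :=
  h.imp fun _ a => ⟨a.1, a.2.1, (a.2.2.and e).mono fun _ b => b.2 ▸ b.1⟩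

theorem tv_sm (h : ContDiffAt ℝ ∞ f z) (h0 : f z ≠ 0) : Tv 0 f z :=
  ⟨f, h, h0, Eventually.of_forall fun w => by simp⟩

theorem Tv.mul (h : Tv k f z) (h' : Tv k' f' z) : Tv (k + k') (fun w => f w * f' w) z := by
  obtain ⟨v, a, b, c⟩ := h
  obtain ⟨v', a', b', c'⟩ := h'
  refine ⟨_, a.mul a', mul_ne_zero b b', ?_⟩
  filter_upwards [c, c', ev_ne z] with w e1 e2 e3
  rw [zpow_add₀ (sub_ne_zero.2 e3), ← e1, ← e2]
  ring

theorem Tv.inv (h : Tv k f z) : Tv (-k) (fun w => (f w)⁻¹) z := by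
  obtain ⟨v, a, b, c⟩ := h
  refine ⟨_, a.inv b, inv_ne_zero b, c.mono fun w e => ?_⟩
  rw [Pi.inv_apply, ← e, zpow_neg, mul_inv]

theorem tv_ord (hf : MeromorphicAt f z) (o : meromorphicOrderAt f z = k) : Tv (-k) f z := by
  obtain ⟨g, a, b, c⟩ := (meromorphicOrderAt_eq_int_iff hf).1 o
  refine ⟨g, hol_cd a, b, ?_⟩
  filter_upwards [c, ev_ne z] with w e1 e2
  rw [e1, smul_eq_mul, zpow_neg, inv_mul_cancel_left₀ (zpow_ne_zero _ (sub_ne_zero.2 e2))]

theorem Tv.hx (h : Tv 0 f z) : ContDiffAt ℝ ∞ (hx f) z ∧ hx f z ≠ 0 ∧ f =ᶠ[𝓝[≠] z] hx f := by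
  obtain ⟨v, a, b, c⟩ := h
  have c : f =ᶠ[𝓝[≠] z] v := c.mono fun w e => by simpa using e
  have d := hx_ev ((sm_ev a).mono fun _ e => e.continuousAt) c
  exact ⟨a.congr_of_eventuallyEq d, d.self_of_nhds ▸ b, c.trans (pn d.symm)⟩

theorem Bi.tv' (h : Bi φ ψ z u) (a : Tv k f u) : Tv k (fun w => f (φ w)) z := by
  obtain ⟨v, a, b, c⟩ := a
  obtain ⟨p, hp⟩ := h.a1
  have d : AnalyticAt ℂ (dslope φ z) z := ⟨_, hp.has_fpower_series_dslope_fslope⟩
  have d0 : dslope φ z z ≠ 0 := by rw [dslope_same]; exact h.ne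
  refine ⟨fun w => dslope φ z w ^ (-k) * v (φ w), (hol_cd (d.fun_zpow d0)).mul
    ((h.e1 ▸ a).comp z (hol_cd h.a1)), mul_ne_zero (zpow_ne_zero _ d0) (h.e1 ▸ b), ?_⟩
  filter_upwards [h.tend.eventually c, pn (d.continuousAt.eventually_ne d0)] with w e1 e2
  rw [← e1, ← h.e1, ← sub_smul_dslope φ z w, smul_eq_mul, mul_zpow, zpow_neg, mul_comm _ (_ ^ k),
    mul_assoc, inv_mul_cancel_left₀ (zpow_ne_zero _ e2)]

theorem Bi.tv (h : Bi φ ψ z u) (e : ∀ᶠ w in 𝓝[≠] z, f' w = f (φ w)) : Tv k f' z ↔ Tv k f u :=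
  ⟨fun a => (h.symm.tv' a).congr (EventuallyEq.symm (h.back e)),
    fun a => (h.tv' a).congr (EventuallyEq.symm e)⟩

open Classical in
theorem tv_sub (a z : ℂ) : Tv (-if a = z then 1 else 0) (fun w => w - a) z := by
  split_ifs with c
  · refine ⟨fun _ => 1, contDiffAt_const, one_ne_zero, (ev_ne z).mono fun w e => ?_⟩
    rw [c, zpow_neg_one, inv_mul_cancel₀ (sub_ne_zero.2 e)]
  · exact tv_sm (hol_cd (an_sub a z)) (sub_ne_zero.2 (Ne.symm c))

open Classical in
theorem tv_bump {o a : ℂ} (χ : ContDiffBump o) (ha : a ∈ ball o χ.rIn) (z : ℂ) :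
    Tv ((if o = z then 1 else 0) - if a = z then 1 else 0)
      (fun w => 1 + χ w * ((o - a) / (w - o))) z := by
  by_cases c : z ∈ ball o χ.rIn
  · have := (tv_sub o z).inv.mul (tv_sub a z)
    rw [neg_neg, ← sub_eq_add_neg] at this
    refine this.congr ?_
    have n : ∀ᶠ w in 𝓝[≠] z, w ≠ o := by
      by_cases d : o = z
      · exact d ▸ ev_ne o
      · exact pn (isOpen_ne.mem_nhds (Ne.symm d))
    filter_upwards [n, pn (isOpen_ball.mem_nhds c)] with w e1 e2
    have := sub_ne_zero.2 e1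
    rw [χ.one_of_mem_closedBall (ball_subset_closedBall e2)]
    field_simp
    push_cast
    ring
  · have n : o ≠ z := fun d => c (d ▸ mem_ball_self χ.rIn_pos)
    have n' := sub_ne_zero.2 n.symm
    rw [if_neg n, if_neg fun d : a = z => c (d ▸ ha), sub_zero]
    refine tv_sm (contDiffAt_const.add ((P275HK.cd_ofReal χ.contDiff.contDiffAt).mul
      (hol_cd (analyticAt_const.div (an_sub o z) n')))) fun e => ?_
    have f : ‖(χ z : ℂ) * ((o - a) / (z - o))‖ < 1 := by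
      rw [norm_mul, norm_div, Complex.norm_real, Real.norm_of_nonneg χ.nonneg]
      refine (mul_le_of_le_one_left (by positivity) χ.le_one).trans_lt
        ((div_lt_one (norm_pos_iff.2 n')).2 ?_)
      rw [← dist_eq_norm, ← dist_eq_norm, dist_comm]
      exact (mem_ball.1 ha).trans_le (not_lt.1 c)
    rw [eq_neg_of_add_eq_zero_right e, norm_neg, norm_one] at f
    exact f.false

end germ

variable {C : Type} [TopologicalSpace C] [ChartedSpace ℂ C] [IsManifold 𝓘(ℂ) ω C]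

theorem tv_near [T2Space C] (c : C) : ∀ᶠ x in 𝓝 c, ∃ f : C → ℂ, ∀ q,
    Tv ((Finsupp.single c 1 - Finsupp.single x 1 : C →₀ ℤ) q) (loc q f) (ctr q) := by
  classical
  obtain ⟨ε, h0, hε⟩ := nhds_basis_closedBall.mem_iff.1
    ((chartAt ℂ c).open_target.mem_nhds (ctr_mem c))
  let χ : ContDiffBump (ctr c) := ⟨ε / 2, ε, half_pos h0, half_lt_self h0⟩
  have m := mem_chart_source ℂ c
  filter_upwards [chart_source_mem_nhds ℂ c, ((chartAt ℂ c).continuousAt m).eventually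
    (ball_mem_nhds _ (half_pos h0))] with x x1 x2
  refine ⟨fun q => if q ∈ (chartAt ℂ c).source then 1 + χ (chartAt ℂ c q) *
    ((ctr c - chartAt ℂ c x) / (chartAt ℂ c q - ctr c)) else 1, fun q => ?_⟩
  by_cases d : q ∈ (chartAt ℂ c).source
  · have t := (chartAt ℂ c).map_source d
    have b := (cmp_chart c).bi t
    have l := fun f : C → ℂ => loc_tc t f
    rw [(chartAt ℂ c).left_inv d] at b l
    have e : ∀ y ∈ (chartAt ℂ c).source, Finsupp.single y (1 : ℤ) q =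
        if chartAt ℂ c y = chartAt ℂ c q then 1 else 0 := fun y hy => by
      rw [Finsupp.single_apply]
      exact if_congr ((chartAt ℂ c).injOn.eq_iff hy d).symm rfl rfl
    rw [← b.tv (l _), Finsupp.sub_apply, e c m, e x x1]
    refine (tv_bump χ x2 _).congr ?_
    filter_upwards [pn ((chartAt ℂ c).open_target.mem_nhds t)] with w a
    rw [if_pos ((chartAt ℂ c).map_target a), (chartAt ℂ c).right_inv a]
  · have k := ((isCompact_closedBall (ctr c) ε).image_of_continuousOn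
      ((chartAt ℂ c).continuousOn_symm.mono hε)).isClosed.isOpen_compl.mem_nhds (x := q)
      fun ⟨u, a, b⟩ => d (b ▸ (chartAt ℂ c).map_target (hε a))
    rw [Finsupp.sub_apply, Finsupp.single_eq_of_ne fun a : q = c => d (a ▸ m),
      Finsupp.single_eq_of_ne fun a : q = x => d (a ▸ x1), sub_zero]
    refine (tv_sm (f := fun _ => 1) contDiffAt_const one_ne_zero).congr ?_
    filter_upwards [ev_loc.1 (nhdsWithin_le_nhds k)] with w a
    rw [loc]
    split_ifs with b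
    · rw [χ.zero_of_le_dist (not_lt.1 fun e => a ⟨_, mem_closedBall.2 e.le,
        (chartAt ℂ c).left_inv b⟩)]
      simp
    · rfl

theorem exists_triv [T2Space C] [ConnectedSpace C] (p : C) (D : C →₀ ℤ) : ∃ ℓ, IsTriv D p ℓ := by
  let G : AddSubgroup (C →₀ ℤ) :=
    { carrier := {D | ∃ ℓ : C → ℂ, ∀ x ≠ p, Tv (D x) (loc x ℓ) (ctr x)}
      add_mem' := fun ⟨f, a⟩ ⟨f', b⟩ => ⟨fun y => f y * f' y, fun x e => (a x e).mul (b x e)⟩
      zero_mem' := ⟨fun _ => 1, fun _ _ => tv_sm contDiffAt_const one_ne_zero⟩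
      neg_mem' := fun ⟨f, a⟩ => ⟨fun y => (f y)⁻¹, fun x e => (a x e).inv⟩ }
  have a : IsLocallyConstant fun x : C => Finsupp.single x (1 : ℤ) ∈ G :=
    (IsLocallyConstant.iff_eventually_eq _).2 fun c => (tv_near c).mono fun x ⟨f, e⟩ => by
      have : Finsupp.single c 1 - Finsupp.single x 1 ∈ G := ⟨f, fun q _ => e q⟩
      exact propext ⟨fun b => by simpa using add_mem this b, fun b => by simpa using sub_mem b this⟩
  have b : Finsupp.single p (1 : ℤ) ∈ G := ⟨fun _ => 1, fun x e => by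
    rw [Finsupp.single_eq_of_ne e]; exact tv_sm contDiffAt_const one_ne_zero⟩
  show D ∈ G
  induction D using Finsupp.induction_linear with
  | zero => exact zero_mem _
  | add f g c d => exact add_mem c d
  | single x k =>
    simpa using zsmul_mem ((a.apply_eq_of_preconnectedSpace x p).mpr b) k

theorem trv_ex : TRV := fun _ _ _ _ _ _ _ p D => exists_triv p D

variable {A : At C} {i j : Fin A.N} {z : ℂ} {D : C →₀ ℤ} {p : C} {ℓ : C → ℂ} {l : Cy A ℂ}
  {s : Fm A ℂ}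

/-- the trivialisation in the frames of the cocycle -/
theorem trv_spec (ok : Ok A) (hs : Dv A D l s) (h : IsTriv D p ℓ) (hz : z ∈ off A p i) :
    ContDiffAt ℝ ∞ (trv A s ℓ i) z ∧ trv A s ℓ i z ≠ 0 ∧
      ∀ᶠ w in 𝓝[≠] z, ℓ (pt A i w) * s i w = trv A s ℓ i w := by
  have t := (mem_tgt (i := i)).2 hz.1
  have := ((((ok i).bi t).tv (loc_tc t ℓ)).2 (h _ hz.2)).mul
    (tv_ord (hs.mer i z hz.1) (hs.ord i z hz.1))
  rw [add_neg_cancel] at this
  exact this.hx

theorem trv_tr (ok : Ok A) (hs : Dv A D l s) (h : IsTriv D p ℓ) (hz : z ∈ A.O i j)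
    (hp : pt A i z ≠ p) : trv A s ℓ i z = l i j z * trv A s ℓ j (A.tr i j z) := by
  have a := trv_spec ok hs h (i := i) ⟨hz.1, hp⟩
  have b := trv_spec ok hs h (P275MB.off_tr hz hp)
  refine eq_of_ev (g := fun w => l i j w * trv A s ℓ j (A.tr i j w)) a.1.continuousAt
    ((hs.cc.an hz).continuousAt.mul (b.1.continuousAt.comp (an_tr hz).continuousAt)) ?_
  filter_upwards [a.2.2, (bi_tr hz).tend.eventually b.2.2, hs.tr i j z hz, ev_O hz] with w e1 e2 e3 e4
  rw [← e1, ← e2, e3, pt_tr e4, mul_left_comm]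

end Vale.Agent.P275AD
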